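import Vale.Agent.P205.Torus.Pins

/-!
The assembly: a conformal pair over a closed flat torus, and isothermal coordinates, give the
immersion.
-/

noncomputable section

open ComplexConjugate
open scoped ContDiff RealInnerProductSpace

namespace Vale.Agent.P205.Torus

/-- A unit map is orthogonal to its derivative. -/
theorem inner_fderiv_unit {Γ : ℂ → EuclideanSpace ℝ (Fin 4)} (hΓ : ContDiff ℝ ∞ Γ)
    (h1 : ∀ z, ‖Γ z‖ = 1) (z v : ℂ) : ⟪Γ z, fderiv ℝ Γ z v⟫ = 0 := by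
  have h := ((hΓ.differentiable (by simp)) z).hasFDerivAt.norm_sq
  have e : (fun x => ‖Γ x‖ ^ 2) = fun _ => (1 : ℝ) := funext fun x => by simp [h1]
  rw [e] at h
  have h0 := congrArg (fun L : ℂ →L[ℝ] ℝ => L v) (h.unique (hasFDerivAt_const (1 : ℝ) z))
  simpa [two_smul] using h0

/-- A radial graph over a flat torus in the unit sphere realises the conformal metric. -/
theorem norm_sq_fderiv_graph {Γ : ℂ → EuclideanSpace ℝ (Fin 4)} {Θ : ℂ → ℂ} {U : ℂ → ℝ}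
    (hΓ : ContDiff ℝ ∞ Γ) (h1 : ∀ z, ‖Γ z‖ = 1) (hiso : ∀ z w, ‖fderiv ℝ Γ z w‖ = ‖w‖)
    (hΘ : ContDiff ℝ ∞ Θ) (hU : ContDiff ℝ ∞ U) {ε C : ℝ} (hC : 0 < C) {a : ℂ}
    (ha : ε * ‖a‖ = 1) (z w : ℂ) :
    ‖fderiv ℝ (fun x => (ε / Real.sqrt C * Real.exp (U x)) • Γ (a * Θ x)) z w‖ ^ 2 =
      Real.exp (2 * U z) / C * ((ε * fderiv ℝ U z w) ^ 2 + ‖fderiv ℝ Θ z w‖ ^ 2) := by
  have hn : (∞ : WithTop ℕ∞) ≠ 0 := by simp
  have hU' := (((hU.differentiable hn) z).hasFDerivAt.exp).const_mul (ε / Real.sqrt C)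
  have hT := ((hΘ.differentiable hn) z).hasFDerivAt.const_mul a
  have hG := ((hΓ.differentiable hn) (a * Θ z)).hasFDerivAt.comp z hT
  have hY := (hU'.smul hG).fderiv
  rw [show (fun x => (ε / Real.sqrt C * Real.exp (U x)) • Γ (a * Θ x)) =
    fun x => (ε / Real.sqrt C * Real.exp (U x)) • (Γ ∘ fun y => a * Θ y) x from rfl]
  erw [hY]
  simp only [add_apply, smul_apply, ContinuousLinearMap.smulRight_apply,
    ContinuousLinearMap.comp_apply, Function.comp_apply, smul_eq_mul]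
  rw [norm_add_sq_real]
  have e0 := inner_fderiv_unit hΓ h1 (a * Θ z) (a * fderiv ℝ Θ z w)
  rw [real_inner_comm] at e0
  simp only [real_inner_smul_left, real_inner_smul_right, e0, norm_smul, h1, hiso, norm_mul,
    Real.norm_eq_abs, mul_pow, sq_abs, mul_zero, add_zero, mul_one]
  have hsq : Real.sqrt C ^ 2 = C := Real.sq_sqrt hC.le
  have he : Real.exp (2 * U z) = Real.exp (U z) ^ 2 := by
    rw [← Real.exp_nat_mul]; norm_num
  have hexp := abs_mul (ε / Real.sqrt C) (Real.exp (U z))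
  have ha2 : ε ^ 2 * ‖a‖ ^ 2 = 1 := by rw [← mul_pow, ha, one_pow]
  rw [he, div_pow, hsq]
  field_simp
  linear_combination (‖fderiv ℝ Θ z w‖ ^ 2) * ha2

/-- A linear map realising a multiple of the norm realises that multiple of the inner product. -/
theorem inner_of_norm_sq {L : ℂ →L[ℝ] EuclideanSpace ℝ (Fin 4)} {l : ℝ}
    (h : ∀ w, ‖L w‖ ^ 2 = l * ‖w‖ ^ 2) (v w : ℂ) : ⟪L v, L w⟫ = l * (conj v * w).re := by
  have e := norm_add_sq_real (L v) (L w)
  rw [← map_add, h, h, h] at e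
  have q : ∀ x : ℂ, ‖x‖ ^ 2 = x.re * x.re + x.im * x.im := fun x => by
    rw [Complex.sq_norm, Complex.normSq_apply]
  rw [q, q v, q w] at e
  simp only [Complex.add_re, Complex.add_im] at e
  simp only [Complex.mul_re, Complex.conj_re, Complex.conj_im]
  linarith

/-- Every smooth conformal metric with lattice periods is realised in four-space. -/
theorem conformal_immerses (hF : FourierThm) (hX : FixThm) (hC : ConformalThm)
    (hT : FlatTorusThm) {τ : ℂ} (hτ : τ.im ≠ 0) {lam : ℂ → ℝ} (hl : ContDiff ℝ ∞ lam)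
    (hpos : ∀ z, 0 < lam z) (hl1 : ∀ z, lam (z + 1) = lam z) (hlτ : ∀ z, lam (z + τ) = lam z) :
    ∃ Y : ℂ → EuclideanSpace ℝ (Fin 4), ContDiff ℝ ∞ Y ∧ (∀ z, Y (z + 1) = Y z) ∧
      (∀ z, Y (z + τ) = Y z) ∧ ∀ z w, ‖fderiv ℝ Y z w‖ ^ 2 = lam z * ‖w‖ ^ 2 := by
  obtain ⟨c0, hc0, hs0, hev⟩ := hF τ hτ (fun z => Real.log (lam z) / 2)
    ((hl.log fun z => (hpos z).ne').div_const 2) (fun z => by simp [hl1]) (fun z => by simp [hlτ])
  obtain ⟨η, hη0, hη1, X, hsol, hcont⟩ := hX τ hτ c0 hc0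
  obtain ⟨L0, hL0, hflat⟩ := hT
  set D : ℝ := |τ.im| * (1 - η ^ 2) with hD
  have hDpos : 0 < D := mul_pos (abs_pos.2 hτ) (by nlinarith)
  obtain ⟨k, hk⟩ := exists_nat_ge (2 * L0 / (D * Real.pi) + 1 / η + 1)
  have hA : 0 ≤ 2 * L0 / (D * Real.pi) := by positivity
  have hB : 0 ≤ 1 / η := by positivity
  have hkη : 1 ≤ k * η := by
    have : 1 / η ≤ k := by linarith
    rwa [div_le_iff₀ hη0] at this
  have hk0 : (0 : ℝ) < k := by linarith
  have hkL : 2 * L0 ≤ k * (D * Real.pi) := by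
    have : 2 * L0 / (D * Real.pi) ≤ k := by linarith
    rwa [div_le_iff₀ (by positivity)] at this
  set g : ℝ → ℝ := fun e => ‖1 + (X e).q 0‖ - 2 * Real.pi * k * e with hg
  have hgc : ContinuousOn g (Set.Icc 0 η) :=
    ((continuousOn_const.add hcont).norm).sub (by fun_prop)
  have hq00 : (X 0).q 0 = 0 := norm_le_zero_iff.1 (hsol 0 ⟨le_rfl, hη0.le⟩).2
  have hg0 : g 0 = 1 := by simp [hg, hq00]
  have hgη : g η ≤ 0 := by
    have hb := norm_add_le (1 : ℂ) ((X η).q 0)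
    have hq := (hsol η ⟨hη0.le, le_rfl⟩).2
    simp only [hg, norm_one] at hb ⊢
    nlinarith [Real.two_le_pi]
  obtain ⟨ε, hε, hgε⟩ : (0 : ℝ) ∈ g '' Set.Icc 0 η :=
    intermediate_value_Icc' hη0.le hgc ⟨hgη, by rw [hg0]; exact zero_le_one⟩
  have hε0 : 0 < ε := by
    rcases eq_or_lt_of_le hε.1 with h | h
    · rw [← h, hg0] at hgε; exact absurd hgε one_ne_zero
    · exact h
  obtain ⟨hS, hq⟩ := hsol ε hε
  set q := (X ε).q 0 with hqdef
  have hP1 : ‖1 + q‖ = 2 * Real.pi * k * ε := by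
    simp only [hg] at hgε; linarith
  obtain ⟨Θ, U, C, hC0, hΘ, hU, hU1, hUτ, hΘ1, hΘτ, hen⟩ := hC τ hτ c0 hc0 hs0 ε (X ε) hS
  have hP1pos : 0 < ‖1 + q‖ := by rw [hP1]; positivity
  set a : ℂ := conj (1 + q) / ((‖1 + q‖ * ε : ℝ) : ℂ) with ha
  have hna : ε * ‖a‖ = 1 := by
    rw [ha, norm_div, Complex.norm_conj, Complex.norm_real, Real.norm_eq_abs,
      abs_of_pos (mul_pos hP1pos hε0)]
    field_simp
  have haP1 : a * (1 + q) = ((k : ℕ) * (2 * Real.pi) : ℝ) := by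
    rw [ha, div_mul_eq_mul_div, Complex.conj_mul', ← Complex.ofReal_pow, ← Complex.ofReal_div]
    congr 1
    rw [hP1]
    field_simp
  set P : ℂ := a * (τ + q * conj τ) with hP
  have him : P.im = τ.im * (1 - ‖q‖ ^ 2) / (2 * Real.pi * k * ε ^ 2) := by
    rw [hP, ha, div_mul_eq_mul_div, Complex.div_ofReal_im, hP1, Complex.sq_norm,
      Complex.normSq_apply, show (2 * Real.pi * k * ε * ε) = 2 * Real.pi * k * ε ^ 2 by ring]
    congr 1
    simp only [Complex.mul_im, Complex.add_re, Complex.add_im, Complex.mul_re, Complex.conj_re,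
      Complex.conj_im, Complex.one_re, Complex.one_im]
    ring
  have hεk : 2 * Real.pi * k * ε ≤ 2 := by
    rw [← hP1]
    refine (norm_add_le _ _).trans ?_
    rw [norm_one]
    linarith [hε.2]
  have hbig : L0 ≤ |P.im| := by
    have hden : 0 < 2 * Real.pi * k * ε ^ 2 := by positivity
    have hq2 : ‖q‖ ^ 2 ≤ η ^ 2 := pow_le_pow_left₀ (norm_nonneg _) (hq.trans hε.2) 2
    rw [him, abs_div, abs_of_pos hden, le_div_iff₀ hden, abs_mul,
      abs_of_nonneg (show (0 : ℝ) ≤ 1 - ‖q‖ ^ 2 by nlinarith)]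
    refine le_trans ?_ (mul_le_mul_of_nonneg_left (sub_le_sub_left hq2 1) (abs_nonneg _))
    rw [← hD]
    have h2 : (2 * Real.pi * k * ε) ^ 2 ≤ 4 := by nlinarith [mul_pos hk0 hε0, Real.pi_pos]
    have h3 : L0 * (2 * Real.pi * k * ε ^ 2) * (2 * Real.pi * k) ≤ D * (2 * Real.pi * k) := by
      nlinarith [mul_le_mul_of_nonneg_left h2 hL0.le, Real.pi_pos]
    exact le_of_mul_le_mul_right h3 (by positivity)
  obtain ⟨Γ, hΓ, hΓ1, hΓiso, hΓπ, hΓP⟩ : ∃ Γ : ℂ → EuclideanSpace ℝ (Fin 4), ContDiff ℝ ∞ Γ ∧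
      (∀ z, ‖Γ z‖ = 1) ∧ (∀ z w, ‖fderiv ℝ Γ z w‖ = ‖w‖) ∧
      Function.Periodic Γ ((2 * Real.pi : ℝ) : ℂ) ∧ Function.Periodic Γ P := by
    rcases le_total 0 P.im with h | h
    · obtain ⟨Γ, g1, g2, g3, g4, g5⟩ := hflat P.re P.im (by rwa [abs_of_nonneg h] at hbig)
      exact ⟨Γ, g1, g2, g3, g4, fun z => by have := g5 z; rwa [Complex.re_add_im] at this⟩
    · obtain ⟨Γ, g1, g2, g3, g4, g5⟩ := hflat (-P.re) (-P.im) (by rwa [abs_of_nonpos h] at hbig)
      refine ⟨Γ, g1, g2, g3, g4, ?_⟩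
      have e : ((-P.re : ℝ) : ℂ) + ((-P.im : ℝ) : ℂ) * Complex.I = -P := by
        apply Complex.ext <;> simp
      have g5' : Function.Periodic Γ (-P) := fun z => by rw [← e]; exact g5 z
      simpa using g5'.neg
  refine ⟨fun x => (ε / Real.sqrt C * Real.exp (U x)) • Γ (a * Θ x), ?_, fun z => ?_, fun z => ?_,
    fun z w => ?_⟩
  · exact (contDiff_const.mul hU.exp).smul (hΓ.comp (contDiff_const.mul hΘ))
  · simp only [hU1, hΘ1]
    rw [add_assoc (Θ z), mul_add, haP1, Complex.ofReal_mul, Complex.ofReal_natCast,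
      hΓπ.nat_mul k _]
  · simp only [hUτ, hΘτ]
    rw [add_assoc (Θ z), mul_add, ← hP, hΓP _]
  · rw [norm_sq_fderiv_graph hΓ hΓ1 hΓiso hΘ hU hC0 hna, hen, hev, Complex.ofReal_re]
    have e : Real.exp (2 * U z) * Real.exp (2 * (Real.log (lam z) / 2 - U z)) = lam z := by
      rw [← Real.exp_add, show 2 * U z + 2 * (Real.log (lam z) / 2 - U z) = Real.log (lam z) by ring,
        Real.exp_log (hpos z)]
    rw [← mul_assoc, ← mul_assoc, div_mul_cancel₀ _ hC0.ne', e]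

/-- Isothermal coordinates and the conformal case give every metric. -/
theorem everyTorus_of : FourierThm → FixThm → ConformalThm → FlatTorusThm → IsothermalThm →
    EveryTorusImmerses := by
  intro hF hX hC hT hI E F G hE hFs hG pE pF pG qE qD
  obtain ⟨τ, hτ, Φ, lam, hΦ, hl, hΦ1, hΦτ, hpos, hl1, hlτ, hmet⟩ :=
    hI E F G hE hFs hG pE pF pG qE qD
  obtain ⟨Y, hY, hY1, hYτ, hYm⟩ := conformal_immerses hF hX hC hT hτ hl hpos hl1 hlτ
  refine ⟨Y ∘ Φ, hY.comp hΦ, fun p => ⟨?_, ?_⟩, fun p v w => ?_⟩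
  · simp [hΦ1, hY1]
  · simp [hΦτ, hYτ]
  · have hn : (∞ : WithTop ℕ∞) ≠ 0 := by simp
    rw [fderiv_comp p ((hY.differentiable hn) (Φ p)) ((hΦ.differentiable hn) p),
      ContinuousLinearMap.comp_apply, ContinuousLinearMap.comp_apply,
      inner_of_norm_sq (hYm (Φ p))]
    exact hmet p v w

end Vale.Agent.P205.Torus
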