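import Vale.Agent.P205.Torus.Pins

/-!
The contraction: for small parameters the step is a half contraction of a small ball in every
weighted Wiener algebra whose weighted data are bounded, so its fixed point decreases rapidly and
depends Lipschitz continuously on the parameter.
-/

noncomputable section

open ComplexConjugate Filter Topology
open scoped ENNReal NNReal

namespace Vale.Agent.P205.Torus

variable {τ : ℂ} {w w' : Idx → ℝ≥0} {a a' b b' c d : Cf}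

/-! ### The algebra -/

theorem nw_le_w1 : nw w c ≤ nw (w1 τ w) c :=
  nw_mono fun _ => le_mul_of_one_le_right' le_self_add

theorem nw_sub_le : nw w (a - b) ≤ nw w a + nw w b := by
  rw [sub_eq_add_neg]
  exact nw_add_le.trans_eq (by rw [nw_neg])

theorem nw_sub_comm : nw w (a - b) = nw w (b - a) := by rw [← nw_neg, neg_sub]

theorem mult_add (m : Idx → ℂ) (c d : Cf) : mult m (c + d) = mult m c + mult m d := by
  funext k; simp [mult, mul_add]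

theorem mult_sub (m : Idx → ℂ) (c d : Cf) : mult m (c - d) = mult m c - mult m d := by
  funext k; simp [mult, mul_sub]

theorem cj_sub (c d : Cf) : cj (c - d) = cj c - cj d := by funext k; simp [cj]

theorem sym_sub (c d : Cf) : sym (c - d) = sym c - sym d := by
  funext k; simp [sym, cj_sub]; ring

theorem noMean_sub (c d : Cf) : noMean (c - d) = noMean c - noMean d := by
  funext k; by_cases h : k = 0 <;> simp [noMean, h]

theorem norm_le_of_nw (hw : IsW w) {A : ℝ≥0} (h : nw w c ≤ A) (k : Idx) : ‖c k‖ ≤ A := by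
  have h1 := (enorm_le_nw hw k).trans h
  rw [enorm_eq_nnnorm, ENNReal.coe_le_coe] at h1
  exact_mod_cast h1

theorem conv_summable (hw : IsW w) (hc : nw w c ≠ ∞) (hd : nw w d ≠ ∞) (k : Idx) :
    Summable fun j => c j * d (k - j) := by
  obtain ⟨A, hA⟩ : ∃ A : ℝ≥0, nw w d ≤ A := ⟨(nw w d).toNNReal, (ENNReal.coe_toNNReal hd).ge⟩
  refine Summable.of_norm_bounded (g := fun j => ‖c j‖ * A)
    ((summable_norm_of_nw hw.one_le hc).mul_right _) fun j => ?_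
  rw [norm_mul]
  exact mul_le_mul_of_nonneg_left (norm_le_of_nw hw hA _) (norm_nonneg _)

theorem conv_one_right (c : Cf) : conv c one = c := by
  funext k
  rw [conv, tsum_eq_single k fun j hj => by simp [one, sub_eq_zero, Ne.symm hj]]
  simp [one]

theorem conv_add_right (hw : IsW w) (hc : nw w c ≠ ∞) (ha : nw w a ≠ ∞) (hb : nw w b ≠ ∞) :
    conv c (a + b) = conv c a + conv c b := by
  funext k
  simp only [conv, Pi.add_apply, mul_add]
  exact (conv_summable hw hc ha k).tsum_add (conv_summable hw hc hb k)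

theorem conv_sub_conv (hw : IsW w) (ha : nw w a ≠ ∞) (ha' : nw w a' ≠ ∞) (hb : nw w b ≠ ∞)
    (hb' : nw w b' ≠ ∞) : conv a b - conv a' b' = conv (a - a') b + conv a' (b - b') := by
  funext k
  simp only [conv, Pi.sub_apply, Pi.add_apply, sub_mul, mul_sub]
  rw [(conv_summable hw ha hb k).tsum_sub (conv_summable hw ha' hb k),
    (conv_summable hw ha' hb k).tsum_sub (conv_summable hw ha' hb' k)]
  ring

theorem conv_smul_right (s : ℂ) (c d : Cf) : conv c (s • d) = s • conv c d := by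
  funext k
  simp only [conv, Pi.smul_apply, smul_eq_mul, ← tsum_mul_left]
  exact tsum_congr fun j => by ring

/-! ### Pairs -/

/-- Two families of degree `n`: at most `C ηⁿ` each and `C ηⁿ⁻¹ D` apart. -/
def Pr (w : Idx → ℝ≥0) (η D : ℝ≥0) (n : ℕ) (C : ℝ≥0) (a a' : Cf) : Prop :=
  nw w a ≤ (C * η ^ n : ℝ≥0) ∧ nw w a' ≤ (C * η ^ n : ℝ≥0) ∧
    nw w (a - a') ≤ (C * η ^ (n - 1) * D : ℝ≥0)

variable {η D C C' : ℝ≥0} {n n' : ℕ}

theorem Pr.ne_top (h : Pr w η D n C a a') : nw w a ≠ ∞ ∧ nw w a' ≠ ∞ :=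
  ⟨ne_top_of_le_ne_top ENNReal.coe_ne_top h.1, ne_top_of_le_ne_top ENNReal.coe_ne_top h.2.1⟩

theorem Pr.mono (h : Pr w η D n C a a') (hC : C ≤ C') : Pr w η D n C' a a' :=
  ⟨h.1.trans (ENNReal.coe_le_coe.2 (by gcongr)), h.2.1.trans (ENNReal.coe_le_coe.2 (by gcongr)),
    h.2.2.trans (ENNReal.coe_le_coe.2 (by gcongr))⟩

theorem Pr.weight (h : Pr (w1 τ w) η D n C a a') : Pr w η D n C a a' :=
  ⟨nw_le_w1.trans h.1, nw_le_w1.trans h.2.1, nw_le_w1.trans h.2.2⟩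

theorem Pr.drop (h : Pr w η D (n + 1) C a a') (hη : η ≤ 1) : Pr w η D n C a a' := by
  refine ⟨h.1.trans (ENNReal.coe_le_coe.2 ?_), h.2.1.trans (ENNReal.coe_le_coe.2 ?_),
    h.2.2.trans (ENNReal.coe_le_coe.2 ?_)⟩
  · exact mul_le_mul_right (pow_le_pow_of_le_one zero_le hη n.le_succ) C
  · exact mul_le_mul_right (pow_le_pow_of_le_one zero_le hη n.le_succ) C
  · exact mul_le_mul_left (mul_le_mul_right (pow_le_pow_of_le_one zero_le hη (by omega)) C) D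

theorem Pr.gain (h : Pr w η D 2 C a a') : Pr w η D 1 (C * η) a a' :=
  ⟨h.1.trans_eq (by rw [ENNReal.coe_inj]; ring), h.2.1.trans_eq (by rw [ENNReal.coe_inj]; ring),
    h.2.2.trans_eq (by rw [ENNReal.coe_inj]; norm_num)⟩

theorem Pr.add (h : Pr w η D n C a a') (h' : Pr w η D n C' b b') :
    Pr w η D n (C + C') (a + b) (a' + b') := by
  refine ⟨?_, ?_, ?_⟩
  · rw [add_mul, ENNReal.coe_add]; exact nw_add_le.trans (add_le_add h.1 h'.1)
  · rw [add_mul, ENNReal.coe_add]; exact nw_add_le.trans (add_le_add h.2.1 h'.2.1)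
  · rw [add_mul, add_mul, ENNReal.coe_add, add_sub_add_comm]
    exact nw_add_le.trans (add_le_add h.2.2 h'.2.2)

theorem Pr.neg (h : Pr w η D n C a a') : Pr w η D n C (-a) (-a') :=
  ⟨by rw [nw_neg]; exact h.1, by rw [nw_neg]; exact h.2.1, by
    rw [← neg_sub', nw_neg]; exact h.2.2⟩

theorem Pr.sub (h : Pr w η D n C a a') (h' : Pr w η D n C' b b') :
    Pr w η D n (C + C') (a - b) (a' - b') := by
  simp only [sub_eq_add_neg]
  exact h.add h'.neg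

theorem Pr.smul (h : Pr w η D n C a a') (s : ℂ) : Pr w η D n (‖s‖₊ * C) (s • a) (s • a') := by
  have key : ∀ {c : Cf} {x : ℝ≥0}, nw w c ≤ x → nw w (s • c) ≤ (‖s‖₊ * x : ℝ≥0) := fun {c x} hc => by
    rw [nw_smul, enorm_eq_nnnorm, ENNReal.coe_mul]
    exact mul_le_mul_right hc _
  refine ⟨?_, ?_, ?_⟩
  · rw [mul_assoc]; exact key h.1
  · rw [mul_assoc]; exact key h.2.1
  · rw [← smul_sub, mul_assoc ‖s‖₊, mul_assoc ‖s‖₊]; exact key h.2.2

theorem Pr.cj (h : Pr w η D n C a a') (hw : IsW w) : Pr w η D n C (cj a) (cj a') :=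
  ⟨by rw [nw_cj hw]; exact h.1, by rw [nw_cj hw]; exact h.2.1, by
    rw [← cj_sub, nw_cj hw]; exact h.2.2⟩

theorem Pr.symNoMean (h : Pr w η D n C a a') (hw : IsW w) :
    Pr w η D n C (noMean (sym a)) (noMean (sym a')) := by
  refine ⟨nw_noMean_le.trans ((nw_sym_le hw).trans h.1), nw_noMean_le.trans ((nw_sym_le hw).trans h.2.1),
    ?_⟩
  rw [← noMean_sub, ← sym_sub]
  exact nw_noMean_le.trans ((nw_sym_le hw).trans h.2.2)

theorem Pr.mult (h : Pr w η D n C a a') {m : Idx → ℂ} {K : ℝ≥0}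
    (hm : ∀ k, w' k * ‖m k‖₊ ≤ K * w k) : Pr w' η D n (K * C) (mult m a) (mult m a') := by
  have key : ∀ {c : Cf} {x : ℝ≥0}, nw w c ≤ x → nw w' (Torus.mult m c) ≤ (K * x : ℝ≥0) :=
    fun {c x} hc => by
      rw [ENNReal.coe_mul]
      exact (nw_mult_le hm).trans (mul_le_mul_right hc _)
  refine ⟨?_, ?_, ?_⟩
  · rw [mul_assoc]; exact key h.1
  · rw [mul_assoc]; exact key h.2.1
  · rw [← mult_sub, mul_assoc K, mul_assoc K]; exact key h.2.2

theorem pr_one (hw : IsW w) : Pr w η D 0 1 one one :=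
  ⟨by rw [nw_one hw]; simp, by rw [nw_one hw]; simp, by rw [sub_self, nw_zero]; exact zero_le⟩

theorem Pr.conv (h : Pr w η D n C a a') (h' : Pr w η D n' C' b b') (hw : IsW w) (hη : η ≤ 1) :
    Pr w η D (n + n') (2 * C * C') (conv a b) (conv a' b') := by
  have key : ∀ {c d : Cf} {x y : ℝ≥0}, nw w c ≤ x → nw w d ≤ y →
      nw w (Torus.conv c d) ≤ (x * y : ℝ≥0) := fun {c d x y} hc hd => by
    rw [ENNReal.coe_mul]
    exact (nw_conv_le hw).trans (mul_le_mul' hc hd)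
  have hs : C * η ^ n * (C' * η ^ n') ≤ 2 * C * C' * η ^ (n + n') := by
    rw [pow_add, show C * η ^ n * (C' * η ^ n') = 1 * (C * C' * (η ^ n * η ^ n')) by ring,
      show 2 * C * C' * (η ^ n * η ^ n') = 2 * (C * C' * (η ^ n * η ^ n')) by ring]
    exact mul_le_mul_left one_le_two _
  refine ⟨(key h.1 h'.1).trans (ENNReal.coe_le_coe.2 hs),
    (key h.2.1 h'.2.1).trans (ENNReal.coe_le_coe.2 hs), ?_⟩
  rw [conv_sub_conv hw h.ne_top.1 h.ne_top.2 h'.ne_top.1 h'.ne_top.2]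
  refine nw_add_le.trans ((add_le_add (key h.2.2 h'.1) (key h.2.1 h'.2.2)).trans ?_)
  rw [← ENNReal.coe_add, ENNReal.coe_le_coe]
  have p1 : η ^ (n - 1) * η ^ n' ≤ η ^ (n + n' - 1) := by
    rw [← pow_add]; exact pow_le_pow_of_le_one zero_le hη (by omega)
  have p2 : η ^ n * η ^ (n' - 1) ≤ η ^ (n + n' - 1) := by
    rw [← pow_add]; exact pow_le_pow_of_le_one zero_le hη (by omega)
  calc C * η ^ (n - 1) * D * (C' * η ^ n') + C * η ^ n * (C' * η ^ (n' - 1) * D)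
      = C * C' * D * (η ^ (n - 1) * η ^ n' + η ^ n * η ^ (n' - 1)) := by ring
    _ ≤ C * C' * D * (η ^ (n + n' - 1) + η ^ (n + n' - 1)) := by gcongr
    _ = _ := by ring

/-- A small scalar times a bounded family. -/
theorem Pr.eps (h : Pr w η D 0 C a a') {ε ε' : ℝ} (hε : ‖ε‖₊ ≤ η) (hε' : ‖ε'‖₊ ≤ η)
    (hd : ‖ε - ε'‖₊ ≤ D) (hη : η ≤ 1) : Pr w η D 1 (2 * C) ((ε : ℂ) • a) ((ε' : ℂ) • a') := by
  have key : ∀ {s : ℝ} {c : Cf} {x y : ℝ≥0}, ‖s‖₊ ≤ x → nw w c ≤ y →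
      nw w ((s : ℂ) • c) ≤ (x * y : ℝ≥0) := fun {s c x y} hs hc => by
    rw [nw_smul, enorm_eq_nnnorm, Complex.nnnorm_real, ENNReal.coe_mul]
    exact mul_le_mul' (ENNReal.coe_le_coe.2 hs) hc
  simp only [Pr, Nat.zero_sub, pow_zero, mul_one] at h
  refine ⟨(key hε h.1).trans (ENNReal.coe_le_coe.2 ?_),
    (key hε' h.2.1).trans (ENNReal.coe_le_coe.2 ?_), ?_⟩
  · rw [pow_one, mul_comm η]; exact mul_le_mul_left (le_mul_of_one_le_left zero_le one_le_two) η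
  · rw [pow_one, mul_comm η]; exact mul_le_mul_left (le_mul_of_one_le_left zero_le one_le_two) η
  rw [show (ε : ℂ) • a - (ε' : ℂ) • a' = ((ε - ε' : ℝ) : ℂ) • a + (ε' : ℂ) • (a - a') by
    rw [Complex.ofReal_sub, sub_smul, smul_sub]; abel]
  refine nw_add_le.trans ((add_le_add (key hd h.1) (key hε' h.2.2)).trans ?_)
  rw [← ENNReal.coe_add, ENNReal.coe_le_coe]
  simp only [Nat.sub_self, pow_zero, mul_one]
  calc D * C + η * (C * D) ≤ D * C + 1 * (C * D) := by gcongr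
    _ = 2 * C * D := by ring

/-! ### States -/

/-- The norms of a state are at most `η`. -/
def Sz (τ : ℂ) (w : Idx → ℝ≥0) (η : ℝ≥0) (X : St) : Prop :=
  nw w X.d ≤ η ∧ nw (w1 τ w) X.q ≤ η ∧ nw (w1 τ w) X.i ≤ (64 * η : ℝ≥0) ∧
    nw w X.j ≤ (64 * η : ℝ≥0)

/-- Two states are at most `D` apart. -/
def Near (τ : ℂ) (w : Idx → ℝ≥0) (D : ℝ≥0) (X Y : St) : Prop :=
  nw w (X.d - Y.d) ≤ D ∧ nw (w1 τ w) (X.q - Y.q) ≤ D ∧
    nw (w1 τ w) (X.i - Y.i) ≤ (64 * D : ℝ≥0) ∧ nw w (X.j - Y.j) ≤ (64 * D : ℝ≥0)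

/-- The weighted data are bounded. -/
def Dat (τ : ℂ) (w : Idx → ℝ≥0) (R : ℝ≥0) (c0 : Cf) : Prop :=
  nw (w1 τ w) (dz τ c0) ≤ R ∧ nw w (dz τ (dz τ c0)) ≤ R ∧ nw w (dz τ (dzb τ c0)) ≤ R

/-- The bound of the inverse frequencies. -/
def invBd (τ : ℂ) : ℝ≥0 := 1 + (omMin τ)⁻¹.toNNReal

theorem Near.refl (X : St) : Near τ w 0 X X := by simp [Near, nw_zero]

theorem Near.mono {X Y : St} (h : Near τ w D X Y) {D' : ℝ≥0} (hD : D ≤ D') : Near τ w D' X Y :=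
  ⟨h.1.trans (ENNReal.coe_le_coe.2 hD), h.2.1.trans (ENNReal.coe_le_coe.2 hD),
    h.2.2.1.trans (ENNReal.coe_le_coe.2 (by gcongr)), h.2.2.2.trans (ENNReal.coe_le_coe.2 (by gcongr))⟩

theorem Near.trans {X Y Z : St} {D' : ℝ≥0} (h : Near τ w D X Y) (h' : Near τ w D' Y Z) :
    Near τ w (D + D') X Z := by
  refine ⟨?_, ?_, ?_, ?_⟩
  · rw [ENNReal.coe_add, ← sub_add_sub_cancel X.d Y.d Z.d]
    exact nw_add_le.trans (add_le_add h.1 h'.1)
  · rw [ENNReal.coe_add, ← sub_add_sub_cancel X.q Y.q Z.q]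
    exact nw_add_le.trans (add_le_add h.2.1 h'.2.1)
  · rw [mul_add, ENNReal.coe_add, ← sub_add_sub_cancel X.i Y.i Z.i]
    exact nw_add_le.trans (add_le_add h.2.2.1 h'.2.2.1)
  · rw [mul_add, ENNReal.coe_add, ← sub_add_sub_cancel X.j Y.j Z.j]
    exact nw_add_le.trans (add_le_add h.2.2.2 h'.2.2.2)

theorem nnnorm_bq_mult (k : Idx) : ‖conj (om τ k) / om τ k‖₊ ≤ 1 := by
  by_cases h : om τ k = 0
  · simp [h]
  · simp [nnnorm_div, h]

theorem mult_vv_bound (hτ : τ.im ≠ 0) (k : Idx) :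
    (1 + ‖om τ k‖₊) * ((‖om τ k‖₊ / 2) * (‖om τ k‖₊ ^ 2)⁻¹) ≤ invBd τ ∧
      (‖om τ k‖₊ / 2) * (‖om τ k‖₊ / 2) * (‖om τ k‖₊ ^ 2)⁻¹ ≤ invBd τ := by
  by_cases hk : k = 0
  · simp [hk, om_zero]
  have hm := omMin_pos hτ
  have hle := le_norm_om hτ hk
  have hx : (0 : ℝ) < ‖om τ k‖ := hm.trans_le hle
  constructor <;> rw [← NNReal.coe_le_coe] <;> simp only [invBd, NNReal.coe_mul, NNReal.coe_add,
    NNReal.coe_one, NNReal.coe_div, NNReal.coe_ofNat, NNReal.coe_inv, NNReal.coe_pow, coe_nnnorm,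
    Real.coe_toNNReal _ (inv_nonneg.2 hm.le)]
  · have h1 : ‖om τ k‖⁻¹ ≤ (omMin τ)⁻¹ := inv_anti₀ hm hle
    rw [show (1 + ‖om τ k‖) * (‖om τ k‖ / 2 * (‖om τ k‖ ^ 2)⁻¹) = (‖om τ k‖⁻¹ + 1) / 2 by
      field_simp]
    linarith [inv_nonneg.2 hm.le]
  · rw [show ‖om τ k‖ / 2 * (‖om τ k‖ / 2) * (‖om τ k‖ ^ 2)⁻¹ = 1 / 4 by field_simp; ring]
    linarith [inv_nonneg.2 hm.le]

/-- The step on two states, by degree in the size. -/
theorem step_pr (hτ : τ.im ≠ 0) {R P : ℝ≥0} (hP : R + invBd τ ≤ P) (hw : IsW w) {c0 : Cf}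
    (hc : Dat τ w R c0) {ε ε' : ℝ} (hη : η ≤ 1) (hε : ‖ε‖₊ ≤ η) (hε' : ‖ε'‖₊ ≤ η)
    (hd : ‖ε - ε'‖₊ ≤ D) {X Y : St} (hX : Sz τ w η X) (hY : Sz τ w η Y) (hXY : Near τ w D X Y) :
    Pr w η D 2 (10 ^ 7 * P ^ 4) (dMap τ c0 ε X) (dMap τ c0 ε' Y) ∧
      Pr (w1 τ w) η D 2 (1040 * P ^ 2) (qMap τ c0 ε X) (qMap τ c0 ε' Y) ∧
      Pr (w1 τ w) η D 1 (1 + 128 * η) (iMap τ X) (iMap τ Y) ∧
      Pr w η D 1 (4 + 2856 * P ^ 2 * η) (jMap τ c0 ε X) (jMap τ c0 ε' Y) := by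
  have hw1 : IsW (w1 τ w) := hw.w1
  have hP1 : 1 ≤ P := le_trans (le_trans le_self_add le_add_self) hP
  have hR : R ≤ P := le_self_add.trans hP
  -- the unknowns
  have pd : Pr w η D 1 1 X.d Y.d := by simpa [Pr] using ⟨hX.1, hY.1, hXY.1⟩
  have pq : Pr (w1 τ w) η D 1 1 X.q Y.q := by simpa [Pr] using ⟨hX.2.1, hY.2.1, hXY.2.1⟩
  have pi : Pr (w1 τ w) η D 1 64 X.i Y.i := by
    simpa [Pr] using ⟨hX.2.2.1, hY.2.2.1, hXY.2.2.1⟩
  have pj : Pr w η D 1 64 X.j Y.j := by simpa [Pr] using ⟨hX.2.2.2, hY.2.2.2, hXY.2.2.2⟩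
  have pbq : Pr (w1 τ w) η D 1 1 (bq τ X) (bq τ Y) :=
    (pq.mult (w' := w1 τ w) (K := 1) fun k =>
      (mul_le_mul_right (nnnorm_bq_mult k) _).trans_eq (by rw [mul_one, one_mul])).mono (by simp)
  have half : ∀ {m : Idx → ℂ}, (∀ k, ‖m k‖₊ = ‖om τ k‖₊ / 2) → ∀ {c c' : Cf},
      Pr (w1 τ w) η D 1 1 c c' → Pr w η D 1 1 (mult m c) (mult m c') := fun {m} hm {c c'} hcc =>
    (hcc.mult (w' := w) (K := 1) fun k => by
      rw [hm, one_mul]
      exact mul_le_mul_right ((half_le_self zero_le).trans le_add_self) _).mono (by simp)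
  have pTzz := half (m := mz τ) nnnorm_mz pbq
  have pTbb := half (m := mzb τ) nnnorm_mzb pq
  have pTzb := half (m := mz τ) nnnorm_mz pq
  -- the first derivatives of the radius
  have base : ∀ {w' : Idx → ℝ≥0} {m : Idx → ℂ},
      (∀ k, w' k * ‖m k * -((‖om τ k‖ ^ 2 : ℝ) : ℂ)⁻¹‖₊ ≤ invBd τ * w k) →
      nw w' (mult m c0) ≤ R →
      Pr w' η D 0 P (mult m (c0 + vv τ X)) (mult m (c0 + vv τ Y)) := fun {w' m} hm hR0 => by
    have e : ∀ Z : St, mult m (c0 + vv τ Z)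
        = mult m c0 + mult (fun k => m k * -((‖om τ k‖ ^ 2 : ℝ) : ℂ)⁻¹) Z.d := fun Z => by
      rw [mult_add]; congr 1; funext k; simp [vv, mult, mul_assoc]
    rw [e X, e Y]
    have h0 : Pr w' η D 0 R (mult m c0) (mult m c0) := by
      refine ⟨hR0.trans_eq (by simp), hR0.trans_eq (by simp), ?_⟩
      rw [sub_self, nw_zero]; exact zero_le
    exact (h0.add ((pd.mult hm).drop hη)).mono (by rwa [mul_one])
  have hvn : ∀ k, ‖-((‖om τ k‖ ^ 2 : ℝ) : ℂ)⁻¹‖₊ = (‖om τ k‖₊ ^ 2)⁻¹ := fun k => by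
    rw [nnnorm_neg, nnnorm_inv, Complex.nnnorm_real]; congr 1; ext; simp
  have pfz : Pr (w1 τ w) η D 1 (2 * P) (fz τ c0 ε X) (fz τ c0 ε' Y) :=
    (base (m := mz τ) (fun k => by
      rw [nnnorm_mul, hvn, nnnorm_mz, w1, mul_comm (invBd τ), mul_assoc]
      exact mul_le_mul_right (mult_vv_bound hτ k).1 _) hc.1).eps hε hε' hd hη
  have dd : ∀ (m m' : Idx → ℂ) (c : Cf), mult m (mult m' c) = mult (fun k => m k * m' k) c :=
    fun m m' c => by funext k; simp [mult, mul_assoc]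
  have pfzz : Pr w η D 1 (2 * P) (fzz τ c0 ε X) (fzz τ c0 ε' Y) := by
    have h := (base (w' := w) (m := fun k => mz τ k * mz τ k) (fun k => by
      rw [nnnorm_mul, hvn, nnnorm_mul, nnnorm_mz, mul_comm (invBd τ)]
      exact mul_le_mul_right (mult_vv_bound hτ k).2 _) (by
      have := hc.2.1; rwa [dz, dz, dd] at this)).eps hε hε' hd hη
    simpa only [fzz, dz, dd] using h
  have pfzb : Pr w η D 1 (2 * P) (fzb τ c0 ε X) (fzb τ c0 ε' Y) := by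
    have h := (base (w' := w) (m := fun k => mz τ k * mzb τ k) (fun k => by
      rw [nnnorm_mul, hvn, nnnorm_mul, nnnorm_mz, nnnorm_mzb, mul_comm (invBd τ)]
      exact mul_le_mul_right (mult_vv_bound hτ k).2 _) (by
      have := hc.2.2; rwa [dz, dzb, dd] at this)).eps hε hε' hd hη
    simpa only [fzb, dz, dzb, dd] using h
  -- the map
  have hq : Pr (w1 τ w) η D 2 (1040 * P ^ 2) (qMap τ c0 ε X) (qMap τ c0 ε' Y) := by
    refine ((((pfz.cj hw1).conv (pfz.cj hw1) hw1 hη).conv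
      ((pr_one hw1).add (pi.drop hη)) hw1 hη).neg).mono (le_of_eq ?_)
    ring
  have hi : Pr (w1 τ w) η D 1 (1 + 128 * η) (iMap τ X) (iMap τ Y) := by
    have h1 : Pr (w1 τ w) η D 2 128 (conv (cj (bq τ X)) X.i) (conv (cj (bq τ Y)) Y.i) :=
      ((pbq.cj hw1).conv pi hw1 hη).mono (le_of_eq (by norm_num))
    have h2 := ((pbq.cj hw1).add h1.gain).neg
    have e : ∀ Z : St, nw (w1 τ w) (cj (bq τ Z)) ≠ ∞ → nw (w1 τ w) Z.i ≠ ∞ →
        iMap τ Z = -(cj (bq τ Z) + conv (cj (bq τ Z)) Z.i) := fun Z h h' => by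
      rw [iMap, conv_add_right hw1 h (pr_one (η := η) (D := D) hw1).ne_top.1 h', conv_one_right]
    rwa [e X (pbq.cj hw1).ne_top.1 pi.ne_top.1, e Y (pbq.cj hw1).ne_top.2 pi.ne_top.2]
  have pb := pbq.weight
  have pqw := pq.weight
  have pfw := pfz.weight
  have pff : Pr w η D 2 (16 * P ^ 2) ((2 : ℂ) • conv (fz τ c0 ε X) (cj (fz τ c0 ε X)))
      ((2 : ℂ) • conv (fz τ c0 ε' Y) (cj (fz τ c0 ε' Y))) :=
    ((pfw.conv (pfw.cj hw) hw hη).smul 2).mono (le_of_eq (by rw [Complex.nnnorm_ofNat]; ring))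
  have pe : Pr w η D 1 (2 + 20 * P ^ 2 * η) (e2 τ c0 ε X) (e2 τ c0 ε' Y) := by
    have h := (pb.add (pb.cj hw)).add
      ((((pb.conv (pb.cj hw) hw hη).add (pqw.conv (pqw.cj hw) hw hη)).add pff).gain)
    simp only [e2, add_assoc] at h ⊢
    refine h.mono ?_
    rw [← NNReal.coe_le_coe]; push_cast
    have : (1 : ℝ) ≤ (P : ℝ) ^ 2 := one_le_pow₀ (by exact_mod_cast hP1)
    nlinarith [NNReal.coe_nonneg η]
  have hj : Pr w η D 1 (4 + 2856 * P ^ 2 * η) (jMap τ c0 ε X) (jMap τ c0 ε' Y) := by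
    have pe' : Pr w η D 1 (22 * P ^ 2) (e2 τ c0 ε X) (e2 τ c0 ε' Y) := pe.mono (by
      rw [← NNReal.coe_le_coe]; push_cast
      have h1 : (1 : ℝ) ≤ (P : ℝ) ^ 2 := one_le_pow₀ (by exact_mod_cast hP1)
      have h2 : (η : ℝ) ≤ 1 := by exact_mod_cast hη
      nlinarith [mul_le_mul_of_nonneg_left h2 (show (0 : ℝ) ≤ 20 * (P : ℝ) ^ 2 by positivity)])
    have h := (((pe.smul 2).add (pe'.conv pj hw hη).gain)).neg
    have h1 := (pr_one (η := η) (D := D) hw).smul 2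
    have e : ∀ (δ : ℝ) (Z : St), nw w (e2 τ c0 δ Z) ≠ ∞ → nw w Z.j ≠ ∞ →
        jMap τ c0 δ Z = -((2 : ℂ) • e2 τ c0 δ Z + conv (e2 τ c0 δ Z) Z.j) := fun δ Z a b => by
      rw [jMap, jj, conv_add_right hw a h1.ne_top.1 b, conv_smul_right, conv_one_right]
    rw [e ε X pe.ne_top.1 pj.ne_top.1, e ε' Y pe.ne_top.2 pj.ne_top.2]
    refine h.mono (le_of_eq ?_)
    rw [Complex.nnnorm_ofNat]; ring
  have pJ : Pr w η D 0 66 (jj X) (jj Y) :=
    (((pr_one hw).smul 2).add (pj.drop hη)).mono (le_of_eq (by rw [Complex.nnnorm_ofNat]; norm_num))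
  have pez : Pr w η D 1 (11 * P ^ 2) (ez τ c0 ε X) (ez τ c0 ε' Y) := by
    refine ((((pTzz.conv ((pr_one hw).add ((pb.cj hw).drop hη)) hw hη).add
      (((pTbb.cj hw).conv pqw hw hη).drop hη)).smul (2 : ℂ)⁻¹).add
      ((pfzz.conv (pfw.cj hw) hw hη).drop hη)).mono ?_
    rw [← NNReal.coe_le_coe]; push_cast [nnnorm_inv, Complex.nnnorm_ofNat]
    have : (1 : ℝ) ≤ (P : ℝ) ^ 2 := one_le_pow₀ (by exact_mod_cast hP1)
    nlinarith
  have pezb : Pr w η D 2 (20 * P ^ 2) (ezb τ c0 ε X) (ezb τ c0 ε' Y) := by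
    refine ((((((pTzz.conv (pTzz.cj hw) hw hη).add (pTbb.conv (pTbb.cj hw) hw hη)).smul
      (2 : ℂ)⁻¹).add (pfzz.conv (pfzz.cj hw) hw hη)).sub (pTzb.conv (pTzb.cj hw) hw hη)).sub
      (pfzb.conv pfzb hw hη)).mono ?_
    rw [← NNReal.coe_le_coe]; push_cast [nnnorm_inv, Complex.nnnorm_ofNat]
    have : (1 : ℝ) ≤ (P : ℝ) ^ 2 := one_le_pow₀ (by exact_mod_cast hP1)
    nlinarith
  refine ⟨?_, hq, hi, hj⟩
  refine ((((pJ.conv pezb hw hη).sub (((pJ.conv pJ hw hη)).conv (pez.conv (pez.cj hw) hw hη) hw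
    hη)).symNoMean hw).smul (-2 : ℂ)).mono ?_
  rw [nnnorm_neg, Complex.nnnorm_ofNat, ← NNReal.coe_le_coe]; push_cast
  have h1 : (1 : ℝ) ≤ (P : ℝ) ^ 2 := one_le_pow₀ (by exact_mod_cast hP1)
  nlinarith

/-- The radius of the ball of contraction. -/
def smallη (τ : ℂ) (R : ℝ≥0) : ℝ≥0 := (4 * 10 ^ 7 * (R + invBd τ) ^ 4)⁻¹

theorem smallη_spec (τ : ℂ) (R : ℝ≥0) :
    0 < smallη τ R ∧ smallη τ R < 1 ∧
      4 * 10 ^ 7 * (R + invBd τ) ^ 4 * smallη τ R = 1 ∧ 1 ≤ R + invBd τ := by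
  have h1 : (1 : ℝ≥0) ≤ R + invBd τ := le_add_of_le_right le_self_add
  have h4 : (1 : ℝ≥0) < 4 * 10 ^ 7 * (R + invBd τ) ^ 4 :=
    lt_of_lt_of_le (by norm_num) (le_mul_of_one_le_right zero_le (one_le_pow₀ h1))
  exact ⟨inv_pos.2 (zero_lt_one.trans h4), inv_lt_one_of_one_lt₀ h4,
    mul_inv_cancel₀ (zero_lt_one.trans h4).ne', h1⟩

/-- The step keeps the ball and halves distances. -/
theorem step_est (hτ : τ.im ≠ 0) {R : ℝ≥0} (hw : IsW w) {c0 : Cf} (hc : Dat τ w R c0) {ε ε' : ℝ}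
    (hη : η ≤ smallη τ R) (hε : ‖ε‖₊ ≤ η) (hε' : ‖ε'‖₊ ≤ η) (hd : ‖ε - ε'‖₊ ≤ D) {X Y : St}
    (hX : Sz τ w η X) (hY : Sz τ w η Y) (hXY : Near τ w D X Y) :
    Sz τ w η (step τ c0 ε X) ∧ Near τ w (D / 2) (step τ c0 ε X) (step τ c0 ε' Y) := by
  obtain ⟨-, hs1, hs, hP⟩ := smallη_spec τ R
  obtain ⟨P, hPdef⟩ : ∃ P, P = R + invBd τ := ⟨_, rfl⟩
  rw [← hPdef] at hs hP
  have hη1 : η ≤ 1 := hη.trans hs1.le
  obtain ⟨pd, pq, pi, pj⟩ := step_pr hτ hPdef.ge hw hc hη1 hε hε' hd hX hY hXY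
  have hC : 4 * 10 ^ 7 * (P : ℝ) ^ 4 * η ≤ 1 := by
    have : 4 * 10 ^ 7 * P ^ 4 * η ≤ 1 := (mul_le_mul_right hη _).trans_eq hs
    exact_mod_cast this
  have hp2 : (1 : ℝ) ≤ (P : ℝ) ^ 2 := one_le_pow₀ (by exact_mod_cast hP)
  have hη0 := NNReal.coe_nonneg η
  have hD0 := NNReal.coe_nonneg D
  have h24 : (P : ℝ) ^ 2 * η ≤ (P : ℝ) ^ 4 * η := by
    refine mul_le_mul_of_nonneg_right ?_ hη0
    nlinarith
  have hη' : (η : ℝ) ≤ (P : ℝ) ^ 2 * η := le_mul_of_one_le_left hη0 hp2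
  refine ⟨⟨pd.1.trans ?_, pq.1.trans ?_, pi.1.trans ?_, pj.1.trans ?_⟩,
    pd.2.2.trans ?_, pq.2.2.trans ?_, pi.2.2.trans ?_, pj.2.2.trans ?_⟩ <;>
    rw [ENNReal.coe_le_coe, ← NNReal.coe_le_coe] <;> push_cast <;>
    (try simp only [pow_one, pow_zero, mul_one])
  all_goals
    nlinarith [mul_le_mul_of_nonneg_right hC hη0, mul_le_mul_of_nonneg_right hC hD0,
      mul_le_mul_of_nonneg_right h24 hη0, mul_le_mul_of_nonneg_right h24 hD0,
      mul_le_mul_of_nonneg_right hη' hη0, mul_le_mul_of_nonneg_right hη' hD0]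

/-! ### Weights -/

/-- Polynomial weights close to one. -/
def wd (τ : ℂ) (δ : ℝ≥0) (m : ℕ) : Idx → ℝ≥0 := fun k => (1 + δ * ‖om τ k‖₊) ^ m

theorem isW_wd (δ : ℝ≥0) (m : ℕ) : IsW (wd τ δ m) where
  zero := by simp [wd, om_zero]
  one_le k := one_le_pow₀ le_self_add
  mul_le j k := by
    rw [wd, wd, wd, ← mul_pow]
    refine pow_le_pow_left₀ zero_le ?_ m
    rw [om_add]
    refine (add_le_add le_rfl (mul_le_mul_right (nnnorm_add_le _ _) δ)).trans ?_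
    rw [← NNReal.coe_le_coe]
    push_cast
    nlinarith [norm_nonneg (om τ j), norm_nonneg (om τ k),
      mul_nonneg (mul_nonneg δ.coe_nonneg δ.coe_nonneg) (mul_nonneg (norm_nonneg (om τ j)) (norm_nonneg (om τ k)))]
  even k := by simp [wd, om_neg]

theorem wd_le {δ : ℝ≥0} (hδ : δ ≤ 1) (x : ℝ≥0) (m : ℕ) :
    (1 + δ * x) ^ m ≤ 1 + δ * (1 + x) ^ m := by
  suffices h : ∀ m : ℕ, (1 + (δ : ℝ) * x) ^ m + δ ≤ 1 + δ * (1 + (x : ℝ)) ^ m by
    rw [← NNReal.coe_le_coe]; push_cast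
    linarith [h m, δ.coe_nonneg]
  intro m
  induction m with
  | zero => simp
  | succ m ih =>
    have h1 : (δ : ℝ) ≤ 1 := by exact_mod_cast hδ
    have hA : (1 : ℝ) ≤ (1 + (x : ℝ)) ^ m := one_le_pow₀ (by linarith [x.coe_nonneg])
    rw [pow_succ, pow_succ]
    nlinarith [mul_le_mul_of_nonneg_right ih (show (0 : ℝ) ≤ 1 + δ * x by positivity),
      mul_nonneg (mul_nonneg δ.coe_nonneg (sub_nonneg.2 hA))
        (mul_nonneg x.coe_nonneg (sub_nonneg.2 h1)), δ.coe_nonneg, x.coe_nonneg]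

theorem dat_exists {c0 : Cf} (hc : Rapid τ c0) :
    ∃ R : ℝ≥0, ∀ m, ∃ δ : ℝ≥0, 0 < δ ∧ δ ≤ 1 ∧ Dat τ (wd τ δ m) R c0 := by
  set g := fun m => nw (w1 τ (wp τ m)) (dz τ c0) + nw (wp τ m) (dz τ (dz τ c0))
    + nw (wp τ m) (dz τ (dzb τ c0)) with hg
  have hfin : ∀ m, g m ≠ ∞ := fun m => by
    have e : w1 τ (wp τ m) = wp τ (m + 1) := funext fun k => (pow_succ _ _).symm
    simp only [hg, e]
    exact ENNReal.add_ne_top.2 ⟨ENNReal.add_ne_top.2 ⟨hc.dz _, hc.dz.dz _⟩, hc.dzb.dz _⟩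
  refine ⟨(g 0).toNNReal + 1, fun m => ?_⟩
  set M := 3 ^ m * (g m).toNNReal
  set δ : ℝ≥0 := (1 + M)⁻¹
  have hδ : δ ≤ 1 := inv_le_one_of_one_le₀ le_self_add
  have hδM : δ * M ≤ 1 := by
    rw [inv_mul_le_iff₀ (lt_of_lt_of_le one_pos le_self_add), mul_one]
    exact le_add_self
  refine ⟨δ, inv_pos.2 (lt_of_lt_of_le one_pos le_self_add), hδ, ?_⟩
  have key : ∀ {v u u' : Idx → ℝ≥0} {c : Cf}, (∀ k, v k ≤ u k + δ * 3 ^ m * u' k) →
      nw u c ≤ g 0 → nw u' c ≤ g m → nw v c ≤ ((g 0).toNNReal + 1 : ℝ≥0) := by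
    intro v u u' c hv hu hu'
    refine (nw_mono hv).trans ?_
    have e : nw (fun k => u k + δ * 3 ^ m * u' k) c = nw u c + (δ * 3 ^ m : ℝ≥0) * nw u' c := by
      simp only [nw, ENNReal.coe_add, ENNReal.coe_mul, add_mul, ← ENNReal.tsum_mul_left,
        ← ENNReal.tsum_add, mul_assoc]
    rw [e, ENNReal.coe_add, ENNReal.coe_toNNReal (hfin 0)]
    refine add_le_add hu ((mul_le_mul_right hu' _).trans ?_)
    rw [← ENNReal.coe_toNNReal (hfin m), ← ENNReal.coe_mul, ENNReal.coe_le_coe, mul_assoc]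
    exact hδM
  have hwd : ∀ k, wd τ δ m k ≤ wp τ 0 k + δ * 3 ^ m * wp τ m k := fun k => by
    simp only [wd, wp, pow_zero]
    refine (wd_le hδ _ m).trans (add_le_add le_rfl ?_)
    rw [mul_assoc]
    exact mul_le_mul_right (le_mul_of_one_le_left zero_le (one_le_pow₀ (by norm_num))) δ
  refine ⟨key (u := w1 τ (wp τ 0)) (u' := w1 τ (wp τ m)) (fun k => ?_) ?_ ?_,
    key (u := wp τ 0) (u' := wp τ m) hwd ?_ ?_, key (u := wp τ 0) (u' := wp τ m) hwd ?_ ?_⟩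
  · simp only [w1]
    rw [← mul_assoc, ← add_mul]
    exact mul_le_mul_left (hwd k) _
  all_goals first
    | exact le_self_add.trans le_self_add
    | exact le_add_self.trans le_self_add
    | exact le_add_self

/-! ### The fixed point -/

variable {c0 : Cf} {R : ℝ≥0} {ε ε' : ℝ}

/-- The iterates. -/
def iterSt (τ : ℂ) (c0 : Cf) (ε : ℝ) : ℕ → St
  | 0 => ⟨0, 0, 0, 0⟩
  | n + 1 => step τ c0 ε (iterSt τ c0 ε n)

theorem iter_sz (hτ : τ.im ≠ 0) (hw : IsW w) (hc : Dat τ w R c0) (hη : η ≤ smallη τ R)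
    (hε : ‖ε‖₊ ≤ η) : ∀ n, Sz τ w η (iterSt τ c0 ε n)
  | 0 => by simp [iterSt, Sz, nw_zero]
  | n + 1 => (step_est hτ hw hc (D := 0) hη hε hε (by simp) (iter_sz hτ hw hc hη hε n)
      (iter_sz hτ hw hc hη hε n) (Near.refl _)).1

theorem iter_succ_near (hτ : τ.im ≠ 0) (hw : IsW w) (hc : Dat τ w R c0) (hη : η ≤ smallη τ R)
    (hε : ‖ε‖₊ ≤ η) : ∀ n, Near τ w (η / 2 ^ n) (iterSt τ c0 ε n) (iterSt τ c0 ε (n + 1))
  | 0 => by
    obtain ⟨a, b, c, d⟩ := iter_sz hτ hw hc hη hε 1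
    simp only [Near, iterSt, zero_sub, nw_neg, pow_zero, div_one] at *
    exact ⟨a, b, c, d⟩
  | n + 1 => by
    refine ((step_est hτ hw hc hη hε hε (by simp) (iter_sz hτ hw hc hη hε n)
      (iter_sz hτ hw hc hη hε (n + 1)) (iter_succ_near hτ hw hc hη hε n)).2).mono (le_of_eq ?_)
    rw [pow_succ, div_div]

theorem iter_near (hτ : τ.im ≠ 0) (hw : IsW w) (hc : Dat τ w R c0) (hη : η ≤ smallη τ R)
    (hε : ‖ε‖₊ ≤ η) : ∀ N n, Near τ w (2 * η / 2 ^ n) (iterSt τ c0 ε n) (iterSt τ c0 ε (n + N))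
  | 0, n => (Near.refl _).mono zero_le
  | N + 1, n => by
    have h := (iter_succ_near hτ hw hc hη hε n).trans (iter_near hτ hw hc hη hε N (n + 1))
    rw [show n + 1 + N = n + (N + 1) by ring] at h
    refine h.mono (le_of_eq ?_)
    rw [pow_succ]
    field_simp
    ring

theorem iter_lip (hτ : τ.im ≠ 0) (hw : IsW w) (hc : Dat τ w R c0) (hη : η ≤ smallη τ R)
    (hε : ‖ε‖₊ ≤ η) (hε' : ‖ε'‖₊ ≤ η) :
    ∀ n, Near τ w ‖ε - ε'‖₊ (iterSt τ c0 ε n) (iterSt τ c0 ε' n)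
  | 0 => (Near.refl _).mono zero_le
  | n + 1 => ((step_est hτ hw hc hη hε hε' le_rfl (iter_sz hτ hw hc hη hε n)
      (iter_sz hτ hw hc hη hε' n) (iter_lip hτ hw hc hη hε hε' n)).2).mono (half_le_self zero_le)

/-- The limit of the iterates. -/
def fixSt (τ : ℂ) (c0 : Cf) (ε : ℝ) : St :=
  ⟨fun k => limUnder atTop fun n => (iterSt τ c0 ε n).d k,
    fun k => limUnder atTop fun n => (iterSt τ c0 ε n).q k,
    fun k => limUnder atTop fun n => (iterSt τ c0 ε n).i k,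
    fun k => limUnder atTop fun n => (iterSt τ c0 ε n).j k⟩

theorem nw_le_of_tendsto {f : ℕ → Cf} {l : Cf} {A : ℝ≥0∞}
    (hf : ∀ k, Tendsto (fun n => f n k) atTop (𝓝 (l k))) (h : ∀ᶠ n in atTop, nw w (f n) ≤ A) :
    nw w l ≤ A := by
  rw [nw, ENNReal.tsum_eq_iSup_sum]
  refine iSup_le fun s => le_of_tendsto (tendsto_finsetSum s fun k _ =>
    ENNReal.Tendsto.const_mul ((continuous_enorm.tendsto _).comp (hf k)) (Or.inr ENNReal.coe_ne_top))
      (h.mono fun n hn => le_trans (ENNReal.sum_le_tsum s) hn)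

theorem fix_tendsto (hτ : τ.im ≠ 0) (hw : IsW w) (hc : Dat τ w R c0) (hη : η ≤ smallη τ R)
    (hε : ‖ε‖₊ ≤ η) (k : Idx) :
    Tendsto (fun n => (iterSt τ c0 ε n).d k) atTop (𝓝 ((fixSt τ c0 ε).d k)) ∧
      Tendsto (fun n => (iterSt τ c0 ε n).q k) atTop (𝓝 ((fixSt τ c0 ε).q k)) ∧
      Tendsto (fun n => (iterSt τ c0 ε n).i k) atTop (𝓝 ((fixSt τ c0 ε).i k)) ∧
      Tendsto (fun n => (iterSt τ c0 ε n).j k) atTop (𝓝 ((fixSt τ c0 ε).j k)) := by
  have h := iter_succ_near hτ hw hc hη hε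
  have cau : ∀ (f : ℕ → ℂ) (C : ℝ≥0), (∀ n, ‖f n - f (n + 1)‖ ≤ (C * (η / 2 ^ n) : ℝ≥0)) →
      Tendsto f atTop (𝓝 (limUnder atTop f)) := fun f C hf => by
    refine (cauchySeq_of_le_geometric (1 / 2) ((C : ℝ) * η) (by norm_num) fun n => ?_).tendsto_limUnder
    rw [dist_eq_norm]
    refine (hf n).trans (le_of_eq ?_)
    push_cast
    rw [one_div, inv_pow]
    ring
  refine ⟨cau _ 1 fun n => ?_, cau _ 1 fun n => ?_, cau _ 64 fun n => ?_, cau _ 64 fun n => ?_⟩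
  · simpa using norm_le_of_nw hw (h n).1 k
  · simpa using norm_le_of_nw hw.w1 (h n).2.1 k
  · simpa using norm_le_of_nw hw.w1 (h n).2.2.1 k
  · simpa using norm_le_of_nw hw (h n).2.2.2 k

theorem fix_sz (hτ : τ.im ≠ 0) (hw : IsW w) (hc : Dat τ w R c0) (hη : η ≤ smallη τ R)
    (hε : ‖ε‖₊ ≤ η) : Sz τ w η (fixSt τ c0 ε) := by
  have t := fix_tendsto hτ hw hc hη hε
  have s := iter_sz hτ hw hc hη hε
  exact ⟨nw_le_of_tendsto (fun k => (t k).1) (Eventually.of_forall fun n => (s n).1),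
    nw_le_of_tendsto (fun k => (t k).2.1) (Eventually.of_forall fun n => (s n).2.1),
    nw_le_of_tendsto (fun k => (t k).2.2.1) (Eventually.of_forall fun n => (s n).2.2.1),
    nw_le_of_tendsto (fun k => (t k).2.2.2) (Eventually.of_forall fun n => (s n).2.2.2)⟩

theorem fix_near (hτ : τ.im ≠ 0) (hw : IsW w) (hc : Dat τ w R c0) (hη : η ≤ smallη τ R)
    (hε : ‖ε‖₊ ≤ η) (n : ℕ) : Near τ w (2 * η / 2 ^ n) (iterSt τ c0 ε n) (fixSt τ c0 ε) := by
  have t := fix_tendsto hτ hw hc hη hε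
  have hev : ∀ᶠ m in atTop, Near τ w (2 * η / 2 ^ n) (iterSt τ c0 ε n) (iterSt τ c0 ε m) :=
    (eventually_ge_atTop n).mono fun m hm => by
      obtain ⟨N, rfl⟩ := Nat.exists_eq_add_of_le hm
      exact iter_near hτ hw hc hη hε N n
  exact ⟨nw_le_of_tendsto (fun k => tendsto_const_nhds.sub (t k).1) (hev.mono fun m h => h.1),
    nw_le_of_tendsto (fun k => tendsto_const_nhds.sub (t k).2.1) (hev.mono fun m h => h.2.1),
    nw_le_of_tendsto (fun k => tendsto_const_nhds.sub (t k).2.2.1) (hev.mono fun m h => h.2.2.1),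
    nw_le_of_tendsto (fun k => tendsto_const_nhds.sub (t k).2.2.2) (hev.mono fun m h => h.2.2.2)⟩

theorem fix_fixed (hτ : τ.im ≠ 0) (hw : IsW w) (hc : Dat τ w R c0) (hη : η ≤ smallη τ R)
    (hε : ‖ε‖₊ ≤ η) : step τ c0 ε (fixSt τ c0 ε) = fixSt τ c0 ε := by
  set X := fixSt τ c0 ε
  have h : ∀ n, Near τ w (4 * η / 2 ^ n) (step τ c0 ε X) X := fun n => by
    have hn := fix_near hτ hw hc hη hε n
    have hs := (step_est hτ hw hc hη hε hε (by simp) (iter_sz hτ hw hc hη hε n)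
      (fix_sz hτ hw hc hη hε) hn).2
    have hs' : Near τ w (2 * η / 2 ^ n / 2) (step τ c0 ε X) (iterSt τ c0 ε (n + 1)) := by
      simpa only [Near, iterSt, nw_sub_comm (a := (step τ c0 ε X).d), nw_sub_comm (a := (step τ c0 ε X).q),
        nw_sub_comm (a := (step τ c0 ε X).i), nw_sub_comm (a := (step τ c0 ε X).j)] using hs
    refine (hs'.trans (fix_near hτ hw hc hη hε (n + 1))).mono ?_
    rw [← NNReal.coe_le_coe, pow_succ]
    push_cast
    field_simp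
    nlinarith [NNReal.coe_nonneg η]
  have z : ∀ {v : Idx → ℝ≥0} {a b : Cf} {C : ℝ≥0}, IsW v →
      (∀ n, nw v (a - b) ≤ (C * (4 * η / 2 ^ n) : ℝ≥0)) → a = b := fun {v a b C} hv hab => by
    funext k
    refine sub_eq_zero.1 (norm_le_zero_iff.1 (ge_of_tendsto' (x := atTop) ?_ fun n =>
      norm_le_of_nw hv (hab n) k))
    have := (tendsto_pow_atTop_nhds_zero_of_lt_one (r := (1 / 2 : ℝ)) (by norm_num) (by norm_num)).const_mul
      ((C : ℝ) * (4 * η))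
    rw [mul_zero] at this
    refine this.congr fun n => ?_
    push_cast
    rw [one_div, inv_pow]
    ring
  have h1 : (step τ c0 ε X).d = X.d := z (C := 1) hw fun n => by simpa using (h n).1
  have h2 : (step τ c0 ε X).q = X.q := z (C := 1) hw.w1 fun n => by simpa using (h n).2.1
  have h3 : (step τ c0 ε X).i = X.i := z hw.w1 fun n => (h n).2.2.1
  have h4 : (step τ c0 ε X).j = X.j := z hw fun n => (h n).2.2.2
  calc step τ c0 ε X = ⟨(step τ c0 ε X).d, (step τ c0 ε X).q, (step τ c0 ε X).i,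
      (step τ c0 ε X).j⟩ := rfl
    _ = X := by rw [h1, h2, h3, h4]

/-- The equations are solvable. -/
theorem fixThm : FixThm := by
  intro τ hτ c0 hc0
  obtain ⟨R, hR⟩ := dat_exists hc0
  obtain ⟨hs0, hs1, -, -⟩ := smallη_spec τ R
  obtain ⟨δ₀, -, -, hD0⟩ := hR 0
  have hw0 := isW_wd (τ := τ) δ₀ 0
  refine ⟨smallη τ R, by exact_mod_cast hs0, by exact_mod_cast hs1, fixSt τ c0, ?_, ?_⟩
  · intro ε hε
    have he : ‖ε‖₊ ≤ smallη τ R := by
      rw [← NNReal.coe_le_coe, coe_nnnorm, Real.norm_of_nonneg hε.1]; exact hε.2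
    have rap : ∀ {f : St → Cf} {C : ℝ≥0},
        (∀ {v : Idx → ℝ≥0} {X : St}, Sz τ v ‖ε‖₊ X → nw v (f X) ≤ C) →
        Rapid τ (f (fixSt τ c0 ε)) := fun {f C} hf m => by
      obtain ⟨δ, hδ0, hδ1, hD⟩ := hR m
      have h := hf (fix_sz hτ (isW_wd δ m) hD he le_rfl)
      refine ne_top_of_le_ne_top (b := ((δ ^ m)⁻¹ : ℝ≥0) * (C : ℝ≥0∞))
        (ENNReal.mul_ne_top ENNReal.coe_ne_top ENNReal.coe_ne_top)
        (le_trans ?_ (mul_le_mul_right h _))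
      rw [nw, nw, ← ENNReal.tsum_mul_left]
      refine ENNReal.tsum_le_tsum fun k => ?_
      rw [← mul_assoc, ← ENNReal.coe_mul]
      refine mul_le_mul_left (ENNReal.coe_le_coe.2 ?_) _
      rw [le_inv_mul_iff₀ (pow_pos hδ0 m), wp, wd, ← mul_pow]
      refine pow_le_pow_left₀ zero_le ?_ m
      rw [mul_add, mul_one]
      exact add_le_add hδ1 le_rfl
    refine ⟨⟨fix_fixed hτ hw0 hD0 he le_rfl,
      rap (f := St.d) (C := ‖ε‖₊) fun h => h.1,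
      rap (f := St.q) (C := ‖ε‖₊) fun h => nw_le_w1.trans h.2.1,
      rap (f := St.i) (C := 64 * ‖ε‖₊) fun h => nw_le_w1.trans h.2.2.1,
      rap (f := St.j) (C := 64 * ‖ε‖₊) fun h => h.2.2.2⟩, ?_⟩
    refine (norm_le_of_nw hw0.w1 (fix_sz hτ hw0 hD0 he le_rfl).2.1 0).trans_eq ?_
    rw [coe_nnnorm, Real.norm_of_nonneg hε.1]
  · refine (LipschitzOnWith.of_dist_le_mul (K := 1) fun ε hε ε' hε' => ?_).continuousOn
    rw [NNReal.coe_one, one_mul, dist_eq_norm, dist_eq_norm]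
    have he : ∀ x ∈ Set.Icc (0 : ℝ) (smallη τ R), ‖x‖₊ ≤ smallη τ R := fun x hx => by
      rw [← NNReal.coe_le_coe, coe_nnnorm, Real.norm_of_nonneg hx.1]; exact hx.2
    refine le_of_tendsto (((fix_tendsto hτ hw0 hD0 le_rfl (he ε hε) 0).2.1.sub
      (fix_tendsto hτ hw0 hD0 le_rfl (he ε' hε') 0).2.1).norm) (Eventually.of_forall fun n => ?_)
    exact norm_le_of_nw hw0.w1 (iter_lip hτ hw0 hD0 le_rfl (he ε hε) (he ε' hε') n).2.1 0

end Vale.Agent.P205.Torus
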