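import Vale.Agent.P205.Torus.Pins

/-!
A rapidly decreasing solution of the equations gives a near-identity map and a periodic function
whose joint energy is a constant times the conformal factor.
-/

noncomputable section

open ComplexConjugate
open scoped ENNReal NNReal ContDiff

namespace Vale.Agent.P205.Torus.Conf

variable {τ : ℂ} {c0 : Cf} {ε : ℝ} {X : St} {z : ℂ}

theorem ev_sub {c d : Cf} (hc : Summable fun k => ‖c k‖) (hd : Summable fun k => ‖d k‖) (z : ℂ) :
    ev τ (c - d) z = ev τ c z - ev τ d z := by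
  rw [sub_eq_add_neg, ev_add hc (by simpa using hd), ev_neg, sub_eq_add_neg]

theorem rapid_sub {c d : Cf} (hc : Rapid τ c) (hd : Rapid τ d) : Rapid τ (c - d) := by
  rw [sub_eq_add_neg]
  exact hc.add hd.neg

theorem rapid_vv (hτ : τ.im ≠ 0) (hd : Rapid τ X.d) : Rapid τ (vv τ X) := by
  refine hd.mult (C := ((omMin τ ^ 2)⁻¹).toNNReal) (p := 0) fun k => ?_
  rw [pow_zero, mul_one, ← NNReal.coe_le_coe, coe_nnnorm, norm_neg, norm_inv,
    Complex.norm_of_nonneg (by positivity), Real.coe_toNNReal _ (by positivity)]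
  by_cases hk : k = 0
  · simp [hk, om_zero]
    exact sq_nonneg _
  · exact inv_anti₀ (pow_pos (omMin_pos hτ) 2)
      (pow_le_pow_left₀ (omMin_pos hτ).le (le_norm_om hτ hk) 2)

theorem rapid_bq (hq : Rapid τ X.q) : Rapid τ (bq τ X) := by
  refine hq.mult (C := 1) (p := 0) fun k => ?_
  rw [pow_zero, mul_one, nnnorm_div, RCLike.nnnorm_conj]
  exact div_self_le_one _

theorem dz_smul (a : ℂ) (c : Cf) : dz τ (a • c) = a • dz τ c :=
  funext fun k => by simp [dz, mult]; ring

theorem dzb_smul (a : ℂ) (c : Cf) : dzb τ (a • c) = a • dzb τ c :=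
  funext fun k => by simp [dzb, mult]; ring

theorem dzb_dz (c : Cf) : dzb τ (dz τ c) = dz τ (dzb τ c) :=
  funext fun k => by simp [dz, dzb, mult]; ring

theorem dzb_bq : dzb τ (bq τ X) = dz τ X.q := by
  funext k
  by_cases hk : om τ k = 0
  · simp [dzb, dz, bq, mult, mz, mzb, hk]
  · simp only [dzb, dz, bq, mult, mz, mzb]
    field_simp

theorem dzb_dz_vv (hd0 : X.d 0 = 0) (hτ : τ.im ≠ 0) :
    dzb τ (dz τ (vv τ X)) = (4 : ℂ)⁻¹ • X.d := by
  funext k
  by_cases hk : k = 0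
  · simp [dzb, dz, vv, mult, hk, hd0]
  have hom : om τ k ≠ 0 := fun h => by
    have := le_norm_om hτ hk
    rw [h, norm_zero] at this
    linarith [omMin_pos hτ]
  have hc : conj (om τ k) ≠ 0 := by simpa using hom
  have e : ((‖om τ k‖ ^ 2 : ℝ) : ℂ) = om τ k * conj (om τ k) := by
    rw [Complex.mul_conj, Complex.normSq_eq_norm_sq]
  simp only [dzb, dz, vv, mult, mz, mzb, Pi.smul_apply, smul_eq_mul, e]
  field_simp
  rw [Complex.I_sq]
  ring

theorem dzb_eq_cj_dz {c : Cf} (h : cj c = c) : dzb τ c = cj (dz τ c) := by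
  funext k
  have e : conj (c (-k)) = c k := congrFun h k
  simp only [cj, dz, dzb, mult, mz, mzb, map_mul, map_div₀, Complex.conj_I, om_neg, map_neg,
    Complex.conj_conj, map_ofNat, e]
  ring

theorem cj_fzb_fam {c : Cf} (h : cj c = c) : cj (dz τ (dzb τ c)) = dz τ (dzb τ c) := by
  funext k
  have e : conj (c (-k)) = c k := congrFun h k
  simp only [cj, dz, dzb, mult, mz, mzb, map_mul, map_div₀, Complex.conj_I, om_neg, map_neg,
    Complex.conj_conj, map_ofNat, e]
  ring

theorem ev_real {c : Cf} (h : cj c = c) (z : ℂ) : conj (ev τ c z) = ev τ c z := by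
  rw [← ev_cj, h]

theorem ev_re {c : Cf} (h : cj c = c) (z : ℂ) : ((ev τ c z).re : ℂ) = ev τ c z :=
  (Complex.conj_eq_iff_re.1 (ev_real h z))

theorem cj_vv (h : cj X.d = X.d) : cj (vv τ X) = vv τ X := by
  funext k
  have e : conj (X.d (-k)) = X.d k := congrFun h k
  simp only [cj, vv, mult, map_mul, map_neg, map_inv₀, Complex.conj_ofReal, om_neg, norm_neg, e]

theorem cj_add (c d : Cf) : cj (c + d) = cj c + cj d := funext fun k => by simp [cj]

/-- The real part of a function with conjugate Wirtinger derivatives. -/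
theorem hasFDerivAt_re {f : ℂ → ℂ} {a : ℂ} (h : HW f a (conj a) z) :
    HasFDerivAt (fun w => (f w).re) (Complex.reCLM.comp (dlin a (conj a))) z :=
  Complex.reCLM.hasFDerivAt.comp z h

theorem re_dlin_apply (a w : ℂ) : Complex.reCLM.comp (dlin a (conj a)) w = 2 * (a * w).re := by
  simp [Complex.mul_re]
  ring

/-! ### The functions of a solution -/

variable (τ X) in
/-- The holomorphic derivative. -/
def TT (z : ℂ) : ℂ := 1 + ev τ (bq τ X) z

variable (τ c0 ε X) in
/-- The energy. -/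
def EE (z : ℂ) : ℂ :=
  (2 : ℂ)⁻¹ * (TT τ X z * conj (TT τ X z) + ev τ X.q z * conj (ev τ X.q z)) +
    ev τ (fz τ c0 ε X) z * conj (ev τ (fz τ c0 ε X) z)

/-- The standing hypotheses. -/
structure Hyp (τ : ℂ) (c0 : Cf) (ε : ℝ) (X : St) : Prop where
  im : τ.im ≠ 0
  rapid : Rapid τ c0
  real : cj c0 = c0
  sol : Solves τ c0 ε X

namespace Hyp

variable (H : Hyp τ c0 ε X)
include H

theorem d_eq : X.d = dMap τ c0 ε X := (congrArg St.d H.sol.fixed).symm

theorem q_eq : X.q = qMap τ c0 ε X := (congrArg St.q H.sol.fixed).symm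

theorem i_eq : X.i = iMap τ X := (congrArg St.i H.sol.fixed).symm

theorem j_eq : X.j = jMap τ c0 ε X := (congrArg St.j H.sol.fixed).symm

theorem cj_d : cj X.d = X.d := by
  funext k
  rw [H.d_eq]
  by_cases hk : k = 0
  · simp [cj, dMap, noMean, hk]
  · simp [cj, dMap, noMean, hk, neg_eq_zero, sym, map_ofNat, add_comm]

theorem d_zero : X.d 0 = 0 := by
  rw [H.d_eq]
  simp [dMap, noMean]

theorem cj_c : cj (c0 + vv τ X) = c0 + vv τ X := by
  rw [cj_add, H.real, cj_vv H.cj_d]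

theorem r_vv : Rapid τ (vv τ X) := rapid_vv H.im H.sol.rapid_d

theorem r_c : Rapid τ (c0 + vv τ X) := H.rapid.add H.r_vv

theorem r_bq : Rapid τ (bq τ X) := rapid_bq H.sol.rapid_q

theorem r_fz : Rapid τ (fz τ c0 ε X) := H.r_c.dz.smul _

theorem r_fzz : Rapid τ (fzz τ c0 ε X) := H.r_c.dz.dz.smul _

theorem r_fzb : Rapid τ (fzb τ c0 ε X) := H.r_c.dzb.dz.smul _

theorem r_jj : Rapid τ (jj X) := ((rapid_one (τ := τ)).smul _).add H.sol.rapid_j

theorem r_ez : Rapid τ (ez τ c0 ε X) :=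
  (((H.r_bq.dz.conv ((rapid_one (τ := τ)).add H.r_bq.cj)).add
    (H.sol.rapid_q.dzb.cj.conv H.sol.rapid_q)).smul _).add (H.r_fzz.conv H.r_fz.cj)

theorem r_ezb : Rapid τ (ezb τ c0 ε X) :=
  rapid_sub (rapid_sub ((((H.r_bq.dz.conv H.r_bq.dz.cj).add
    (H.sol.rapid_q.dzb.conv H.sol.rapid_q.dzb.cj)).smul _).add (H.r_fzz.conv H.r_fzz.cj))
    (H.sol.rapid_q.dz.conv H.sol.rapid_q.dz.cj)) (H.r_fzb.conv H.r_fzb)

theorem r_lapLog : Rapid τ (lapLog τ c0 ε X) :=
  rapid_sub (H.r_jj.conv H.r_ezb) ((H.r_jj.conv H.r_jj).conv (H.r_ez.conv H.r_ez.cj))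

theorem conj_T_ne (z : ℂ) : conj (TT τ X z) * (1 + ev τ X.i z) = 1 := by
  have e := congrArg (fun c => ev τ c z) H.i_eq
  simp only [iMap] at e
  rw [ev_neg, ev_conv H.r_bq.cj.summable ((rapid_one (τ := τ)).add H.sol.rapid_i).summable,
    ev_add (rapid_one (τ := τ)).summable H.sol.rapid_i.summable, ev_one, ev_cj] at e
  rw [TT, map_add, map_one]
  linear_combination e

theorem T_ne (z : ℂ) : TT τ X z ≠ 0 := fun h => by simpa [h] using H.conj_T_ne z

/-- The pullback of the quadratic differential vanishes. -/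
theorem G_eq (z : ℂ) :
    TT τ X z * conj (ev τ X.q z) + ev τ (fz τ c0 ε X) z * ev τ (fz τ c0 ε X) z = 0 := by
  have e := congrArg (fun c => ev τ c z) H.q_eq
  simp only [qMap] at e
  rw [ev_neg, ev_conv (H.r_fz.cj.conv H.r_fz.cj).summable ((rapid_one (τ := τ)).add H.sol.rapid_i).summable,
    ev_conv H.r_fz.cj.summable H.r_fz.cj.summable,
    ev_add (rapid_one (τ := τ)).summable H.sol.rapid_i.summable, ev_one, ev_cj] at e
  have e' : conj (TT τ X z) * ev τ X.q z +
      conj (ev τ (fz τ c0 ε X) z) * conj (ev τ (fz τ c0 ε X) z) = 0 := by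
    linear_combination conj (TT τ X z) * e -
      conj (ev τ (fz τ c0 ε X) z) * conj (ev τ (fz τ c0 ε X) z) * H.conj_T_ne z
  simpa using congrArg conj e'

/-- The fourth unknown inverts the energy. -/
theorem J_mul (z : ℂ) : ev τ (jj X) z * EE τ c0 ε X z = 1 := by
  have hq := H.sol.rapid_q
  have r2 : Rapid τ (bq τ X + cj (bq τ X)) := H.r_bq.add H.r_bq.cj
  have r3 := r2.add (H.r_bq.conv H.r_bq.cj)
  have r4 := r3.add (hq.conv hq.cj)
  have r5 := r4.add ((H.r_fz.conv H.r_fz.cj).smul (2 : ℂ))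
  have e := congrArg (fun c => ev τ c z) H.j_eq
  simp only [jMap] at e
  rw [ev_neg, ev_conv (c := e2 τ c0 ε X) r5.summable H.r_jj.summable] at e
  have e2v : ev τ (e2 τ c0 ε X) z = 2 * EE τ c0 ε X z - 1 := by
    simp only [e2]
    rw [ev_add r4.summable ((H.r_fz.conv H.r_fz.cj).smul (2 : ℂ)).summable,
      ev_add r3.summable (hq.conv hq.cj).summable,
      ev_add r2.summable (H.r_bq.conv H.r_bq.cj).summable,
      ev_add H.r_bq.summable H.r_bq.cj.summable, ev_smul,
      ev_conv H.r_bq.summable H.r_bq.cj.summable, ev_conv hq.summable hq.cj.summable,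
      ev_conv H.r_fz.summable H.r_fz.cj.summable, ev_cj, ev_cj, ev_cj, EE, TT, map_add, map_one]
    ring
  have ej : ev τ (jj X) z = 2 + ev τ X.j z := by
    rw [jj, ev_add ((rapid_one (τ := τ)).smul (2 : ℂ)).summable H.sol.rapid_j.summable, ev_smul, ev_one,
      mul_one]
  rw [e2v, ej] at e
  rw [ej]
  linear_combination (1 / 2 : ℂ) * e

omit H in
theorem conj_E (z : ℂ) : conj (EE τ c0 ε X z) = EE τ c0 ε X z := by
  simp [EE, map_ofNat]
  ring

omit H in
theorem E_ofReal (z : ℂ) : ((EE τ c0 ε X z).re : ℂ) = EE τ c0 ε X z :=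
  Complex.conj_eq_iff_re.1 (conj_E z)

theorem E_pos (z : ℂ) : 0 < (EE τ c0 ε X z).re := by
  have h : 0 < Complex.normSq (TT τ X z) := Complex.normSq_pos.2 (H.T_ne z)
  have e : (EE τ c0 ε X z).re = (Complex.normSq (TT τ X z) + Complex.normSq (ev τ X.q z)) / 2 +
      Complex.normSq (ev τ (fz τ c0 ε X) z) := by
    simp [EE, Complex.mul_conj]
    ring
  rw [e]
  linarith [Complex.normSq_nonneg (ev τ X.q z), Complex.normSq_nonneg (ev τ (fz τ c0 ε X) z)]

theorem conj_J (z : ℂ) : conj (ev τ (jj X) z) = ev τ (jj X) z := by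
  have hne : EE τ c0 ε X z ≠ 0 := fun h => by simpa [h] using H.J_mul z
  have e := congrArg conj (H.J_mul z)
  rw [map_mul, map_one, conj_E] at e
  exact mul_right_cancel₀ hne (e.trans (H.J_mul z).symm)

/-! ### Derivatives -/

theorem hw_T (z : ℂ) : HW (TT τ X) (ev τ (dz τ (bq τ X)) z) (ev τ (dz τ X.q) z) z :=
  ((hw_const (1 : ℂ)).add (hw_ev H.r_bq z)).congr (zero_add _) (by rw [dzb_bq, zero_add])

theorem hw_F (z : ℂ) :
    HW (ev τ (fz τ c0 ε X)) (ev τ (fzz τ c0 ε X) z) (ev τ (fzb τ c0 ε X) z) z :=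
  (hw_ev H.r_fz z).congr (by rw [fz, dz_smul]; rfl) (by rw [fz, dzb_smul, dzb_dz]; rfl)

theorem conj_fzb (z : ℂ) : conj (ev τ (fzb τ c0 ε X) z) = ev τ (fzb τ c0 ε X) z := by
  refine ev_real ?_ z
  funext k
  have e := congrFun (cj_fzb_fam (τ := τ) H.cj_c) k
  simp only [cj] at e
  simp [cj, fzb, e]

/-- The antiholomorphic derivative of the quadratic differential vanishes. -/
theorem Gb_eq (z : ℂ) : conj (ev τ (dz τ X.q) z) * ev τ X.q z +
    conj (TT τ X z) * ev τ (dz τ X.q) z +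
    2 * (conj (ev τ (fz τ c0 ε X) z) * ev τ (fzb τ c0 ε X) z) = 0 := by
  have h := ((H.hw_T z).mul (hw_ev H.sol.rapid_q z).conj).add ((H.hw_F z).mul (H.hw_F z))
  have e := (h.unique ((hw_const (0 : ℂ)).congr_fun fun w => (H.G_eq w).symm)).2
  have e' := congrArg conj e
  simp only [map_add, map_mul, Complex.conj_conj, map_zero, H.conj_fzb] at e'
  linear_combination e'

theorem ev_ez (w : ℂ) : ev τ (ez τ c0 ε X) w =
    (2 : ℂ)⁻¹ * (ev τ (dz τ (bq τ X)) w * conj (TT τ X w) +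
      conj (ev τ (dzb τ X.q) w) * ev τ X.q w) +
      ev τ (fzz τ c0 ε X) w * conj (ev τ (fz τ c0 ε X) w) := by
  have hq := H.sol.rapid_q
  have r1 := H.r_bq.dz.conv ((rapid_one (τ := τ)).add H.r_bq.cj)
  have r2 := hq.dzb.cj.conv hq
  rw [ez, ev_add ((r1.add r2).smul (2 : ℂ)⁻¹).summable (H.r_fzz.conv H.r_fz.cj).summable,
    ev_smul, ev_add r1.summable r2.summable,
    ev_conv H.r_bq.dz.summable ((rapid_one (τ := τ)).add H.r_bq.cj).summable,
    ev_add (rapid_one (τ := τ)).summable H.r_bq.cj.summable, ev_one,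
    ev_conv hq.dzb.cj.summable hq.summable, ev_conv H.r_fzz.summable H.r_fz.cj.summable,
    ev_cj, ev_cj, ev_cj, TT, map_add, map_one]

theorem ev_ezb (z : ℂ) : ev τ (ezb τ c0 ε X) z =
    (2 : ℂ)⁻¹ * (ev τ (dz τ (bq τ X)) z * conj (ev τ (dz τ (bq τ X)) z) +
      ev τ (dzb τ X.q) z * conj (ev τ (dzb τ X.q) z)) +
    ev τ (fzz τ c0 ε X) z * conj (ev τ (fzz τ c0 ε X) z) -
    ev τ (dz τ X.q) z * conj (ev τ (dz τ X.q) z) -
    ev τ (fzb τ c0 ε X) z * ev τ (fzb τ c0 ε X) z := by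
  have hq := H.sol.rapid_q
  have r1 := H.r_bq.dz.conv H.r_bq.dz.cj
  have r2 := hq.dzb.conv hq.dzb.cj
  have r3 := ((r1.add r2).smul (2 : ℂ)⁻¹).add (H.r_fzz.conv H.r_fzz.cj)
  have r4 := hq.dz.conv hq.dz.cj
  rw [ezb, ev_sub (rapid_sub r3 r4).summable (H.r_fzb.conv H.r_fzb).summable,
    ev_sub r3.summable r4.summable,
    ev_add ((r1.add r2).smul (2 : ℂ)⁻¹).summable (H.r_fzz.conv H.r_fzz.cj).summable,
    ev_smul, ev_add r1.summable r2.summable, ev_conv H.r_bq.dz.summable H.r_bq.dz.cj.summable,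
    ev_conv hq.dzb.summable hq.dzb.cj.summable, ev_conv H.r_fzz.summable H.r_fzz.cj.summable,
    ev_conv hq.dz.summable hq.dz.cj.summable, ev_conv H.r_fzb.summable H.r_fzb.summable,
    ev_cj, ev_cj, ev_cj, ev_cj]

theorem hw_E (z : ℂ) : HW (EE τ c0 ε X) (ev τ (ez τ c0 ε X) z) (conj (ev τ (ez τ c0 ε X) z)) z := by
  have hq := H.sol.rapid_q
  have h := ((((H.hw_T z).mul (H.hw_T z).conj).add
    ((hw_ev hq z).mul (hw_ev hq z).conj)).const_mul (2 : ℂ)⁻¹).add
    ((H.hw_F z).mul (H.hw_F z).conj)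
  have eG := congrArg conj (H.Gb_eq z)
  simp only [map_add, map_mul, Complex.conj_conj, map_zero, map_ofNat, H.conj_fzb] at eG
  refine h.congr ?_ ?_
  · rw [H.ev_ez, H.conj_fzb]
    linear_combination (1 / 2 : ℂ) * eG
  · rw [H.ev_ez]
    simp only [map_add, map_mul, Complex.conj_conj, map_inv₀, map_ofNat]
    linear_combination (1 / 2 : ℂ) * H.Gb_eq z

/-- The mixed derivative of the energy. -/
theorem hw_ez (z : ℂ) :
    ∃ a, HW (ev τ (ez τ c0 ε X)) a (ev τ (ezb τ c0 ε X) z) z := by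
  have hq := H.sol.rapid_q
  have hS : HW (ev τ (dz τ (bq τ X))) (ev τ (dz τ (dz τ (bq τ X))) z)
      (ev τ (dz τ (dz τ X.q)) z) z :=
    (hw_ev H.r_bq.dz z).congr rfl (by rw [dzb_dz, dzb_bq])
  have hFz : HW (ev τ (fzz τ c0 ε X)) (ev τ (dz τ (fzz τ c0 ε X)) z)
      (ev τ (dz τ (fzb τ c0 ε X)) z) z :=
    (hw_ev H.r_fzz z).congr rfl (by rw [fzz, fzb, dzb_smul, dz_smul, dzb_dz, dzb_dz])
  have h := (((hS.mul (H.hw_T z).conj).add
    ((hw_ev hq.dzb z).conj.mul (hw_ev hq z))).const_mul (2 : ℂ)⁻¹).add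
    (hFz.mul (H.hw_F z).conj)
  have hqz : HW (ev τ (dz τ X.q)) (ev τ (dz τ (dz τ X.q)) z) (ev τ (dz τ (dzb τ X.q)) z) z :=
    (hw_ev hq.dz z).congr rfl (by rw [dzb_dz])
  have hFb : HW (ev τ (fzb τ c0 ε X)) (ev τ (dz τ (fzb τ c0 ε X)) z)
      (ev τ (dzb τ (fzb τ c0 ε X)) z) z := hw_ev H.r_fzb z
  have hG := (((hqz.conj).mul (hw_ev hq z)).add ((H.hw_T z).conj.mul hqz)).add
    (((H.hw_F z).conj.mul hFb).const_mul 2)
  have e2 := (hG.unique ((hw_const (0 : ℂ)).congr_fun fun w => (H.Gb_eq w).symm)).1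
  rw [H.conj_fzb] at e2
  refine ⟨_, (h.congr rfl ?_).congr_fun fun w => (H.ev_ez w).symm⟩
  rw [H.ev_ezb]
  linear_combination (1 / 2 : ℂ) * e2

theorem conj_ezb (z : ℂ) : conj (ev τ (ezb τ c0 ε X) z) = ev τ (ezb τ c0 ε X) z := by
  rw [H.ev_ezb]
  simp only [map_add, map_sub, map_mul, Complex.conj_conj, map_inv₀, map_ofNat, H.conj_fzb]
  ring

/-- The mixed derivative of the logarithm of the energy, corrected. -/
theorem hw_H (z : ℂ) : ∃ a, HW
    (ev τ (conv (jj X) (ez τ c0 ε X) + (2 : ℂ) • dz τ (vv τ X))) a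
    (sym (lapLog τ c0 ε X) 0) z := by
  obtain ⟨a, hP⟩ := H.hw_ez z
  have hJ := hw_ev H.r_jj z
  have eJ := (hJ.mul (H.hw_E z)).unique
    ((hw_const (1 : ℂ)).congr_fun fun w => (H.J_mul w).symm)
  have hV := hw_ev H.r_vv.dz z
  have h := (hJ.mul hP).add (hV.const_mul 2)
  refine ⟨_, (h.congr rfl ?_).congr_fun fun w => ?_⟩
  · have eb : ev τ (dzb τ (jj X)) z =
        -(ev τ (jj X) z * ev τ (jj X) z * conj (ev τ (ez τ c0 ε X) z)) := by
      linear_combination ev τ (jj X) z * eJ.2 - ev τ (dzb τ (jj X)) z * H.J_mul z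
    have eL : ev τ (lapLog τ c0 ε X) z = ev τ (jj X) z * ev τ (ezb τ c0 ε X) z -
        ev τ (jj X) z * ev τ (jj X) z *
          (ev τ (ez τ c0 ε X) z * conj (ev τ (ez τ c0 ε X) z)) := by
      rw [lapLog, ev_sub (H.r_jj.conv H.r_ezb).summable
          ((H.r_jj.conv H.r_jj).conv (H.r_ez.conv H.r_ez.cj)).summable,
        ev_conv H.r_jj.summable H.r_ezb.summable,
        ev_conv (H.r_jj.conv H.r_jj).summable (H.r_ez.conv H.r_ez.cj).summable,
        ev_conv H.r_jj.summable H.r_jj.summable, ev_conv H.r_ez.summable H.r_ez.cj.summable,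
        ev_cj]
    have eR : conj (ev τ (lapLog τ c0 ε X) z) = ev τ (lapLog τ c0 ε X) z := by
      rw [eL]
      simp only [map_sub, map_mul, Complex.conj_conj, H.conj_J, H.conj_ezb]
      ring
    have hn : noMean (sym (lapLog τ c0 ε X)) =
        sym (lapLog τ c0 ε X) - sym (lapLog τ c0 ε X) 0 • one := by
      funext k
      by_cases hk : k = 0 <;> simp [noMean, one, hk]
    have hs : ev τ (sym (lapLog τ c0 ε X)) z = ev τ (lapLog τ c0 ε X) z := by
      rw [sym, ev_smul, ev_add H.r_lapLog.summable H.r_lapLog.cj.summable, ev_cj, eR]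
      ring
    have ed : ev τ X.d z = -2 * (ev τ (lapLog τ c0 ε X) z - sym (lapLog τ c0 ε X) 0) := by
      rw [H.d_eq, dMap, ev_smul, hn,
        ev_sub H.r_lapLog.sym.summable ((rapid_one (τ := τ)).smul _).summable, ev_smul, ev_one, hs, mul_one]
    rw [dzb_dz_vv H.d_zero H.im, ev_smul, ed, eb, eL]
    ring
  · rw [ev_add (H.r_jj.conv H.r_ez).summable (H.r_vv.dz.smul (2 : ℂ)).summable,
      ev_conv H.r_jj.summable H.r_ez.summable, ev_smul]

theorem periodic_one (c : Cf) (z : ℂ) : ev τ c (z + 1) = ev τ c z := by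
  simpa using ev_period H.im c z 1 0

theorem periodic_tau (c : Cf) (z : ℂ) : ev τ c (z + τ) = ev τ c z := by
  simpa using ev_period H.im c z 0 1

/-- The energy is the conformal factor up to a constant. -/
theorem energy_eq : ∃ C : ℝ, 0 < C ∧
    ∀ z, 2 * (EE τ c0 ε X z).re = C * Real.exp (-2 * (ev τ (vv τ X) z).re) := by
  set hh : Cf := conv (jj X) (ez τ c0 ε X) + (2 : ℂ) • dz τ (vv τ X) with hhh
  have rh : Rapid τ hh := (H.r_jj.conv H.r_ez).add (H.r_vv.dz.smul _)
  set κ := sym (lapLog τ c0 ε X) 0 with hκ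
  have hb : ∀ z, ev τ (dzb τ hh) z = κ := fun z => by
    obtain ⟨a, h⟩ := H.hw_H z
    exact ((hw_ev rh z).unique h).2
  set g : ℂ → ℂ := fun w => ev τ hh w - κ * conj w with hg
  have hgd : ∀ z, HasDerivAt g (ev τ (dz τ hh) z) z := fun z => by
    have h : HW g (ev τ (dz τ hh) z) 0 z :=
      ((hw_ev rh z).sub (((hw_id (z := z)).conj).const_mul κ)).congr (by simp) (by simp [hb z])
    rw [hasDerivAt_iff_hasFDerivAt]
    exact hasFDerivAt_of_restrictScalars ℝ h (ContinuousLinearMap.ext fun w => by simp [mul_comm])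
  have hg' : Differentiable ℂ (fun z => ev τ (dz τ hh) z) := fun z => by
    have e0 := ((hw_ev rh.dzb z).unique ((hw_const κ).congr_fun fun w => (hb w).symm)).1
    have h : HW (ev τ (dz τ hh)) (ev τ (dz τ (dz τ hh)) z) 0 z :=
      (hw_ev rh.dz z).congr rfl (by rw [dzb_dz, e0])
    have hd : HasDerivAt (fun w => ev τ (dz τ hh) w) (ev τ (dz τ (dz τ hh)) z) z :=
      hasDerivAt_iff_hasFDerivAt.2 (hasFDerivAt_of_restrictScalars ℝ h
        (ContinuousLinearMap.ext fun w => by simp [mul_comm]))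
    exact hd.differentiableAt
  have hbd : Bornology.IsBounded (Set.range fun z => ev τ (dz τ hh) z) :=
    isBounded_iff_forall_norm_le.2 ⟨_, by
      rintro _ ⟨z, rfl⟩
      exact norm_ev_le rh.dz.summable z⟩
  set α := ev τ (dz τ hh) 0 with hα
  have hconst : ∀ z, ev τ (dz τ hh) z = α := fun z =>
    hg'.apply_eq_apply_of_bounded hbd z 0
  have haff : ∀ z, ev τ hh z - κ * conj z - α * z = ev τ hh 0 := fun z => by
    have hd : ∀ z, HasDerivAt (fun w => g w - α * w) 0 z := fun z => by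
      simpa [hconst z] using (hgd z).fun_sub ((hasDerivAt_id z).const_mul α)
    have := is_const_of_deriv_eq_zero (fun z => (hd z).differentiableAt)
      (fun z => (hd z).deriv) z 0
    simpa [hg] using this
  have e1 := haff 1
  have e2 := haff τ
  have p1 : ev τ hh 1 = ev τ hh 0 := by simpa using H.periodic_one hh 0
  have p2 : ev τ hh τ = ev τ hh 0 := by simpa using H.periodic_tau hh 0
  rw [p1, map_one] at e1
  rw [p2] at e2
  have hτ' : τ - conj τ ≠ 0 := fun h => H.im (by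
    have := congrArg Complex.im h
    simp at this
    linarith)
  have hκ0 : κ = 0 := by
    have : κ * (τ - conj τ) = 0 := by linear_combination e2 - τ * e1
    exact (mul_eq_zero.1 this).resolve_right hτ'
  have hα0 : α = 0 := by linear_combination -e1 - hκ0
  set β := ev τ hh 0 with hβ
  have hH : ∀ z, ev τ hh z = β := fun z => by simpa [hκ0, hα0] using haff z
  set h : ℂ → ℝ := fun z => Real.log (EE τ c0 ε X z).re + 2 * (ev τ (vv τ X) z).re with hh'
  have hd : ∀ z, HasFDerivAt (fun w => h w - 2 * (β * w).re) (0 : ℂ →L[ℝ] ℝ) z := fun z => by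
    have h1 := (hasFDerivAt_re (H.hw_E z)).log (H.E_pos z).ne'
    have hv : HW (ev τ (vv τ X)) (ev τ (dz τ (vv τ X)) z)
        (conj (ev τ (dz τ (vv τ X)) z)) z :=
      (hw_ev H.r_vv z).congr rfl (by rw [dzb_eq_cj_dz (cj_vv H.cj_d), ev_cj])
    have h2 := (hasFDerivAt_re hv).const_mul (2 : ℝ)
    have h3 : HasFDerivAt (fun w : ℂ => 2 * (β * w).re)
        ((2 : ℝ) • Complex.reCLM.comp (β • ContinuousLinearMap.id ℝ ℂ)) z :=
      (Complex.reCLM.hasFDerivAt.comp z ((hasFDerivAt_id z).const_smul β)).const_mul 2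
    refine ((h1.fun_add h2).fun_sub h3).congr_fderiv (ContinuousLinearMap.ext fun w => ?_)
    simp only [sub_apply, add_apply, zero_apply, smul_apply, smul_eq_mul, re_dlin_apply]
    simp only [smul_apply, smul_eq_mul,
      ContinuousLinearMap.comp_apply, ContinuousLinearMap.id_apply, Complex.reCLM_apply]
    have eH : ev τ (jj X) z * ev τ (ez τ c0 ε X) z + 2 * ev τ (dz τ (vv τ X)) z = β := by
      rw [← hH z, hhh, ev_add (H.r_jj.conv H.r_ez).summable (H.r_vv.dz.smul (2 : ℂ)).summable,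
        ev_conv H.r_jj.summable H.r_ez.summable, ev_smul]
    have eJ : ev τ (jj X) z = (((EE τ c0 ε X z).re⁻¹ : ℝ) : ℂ) := by
      rw [Complex.ofReal_inv, E_ofReal]
      exact eq_inv_of_mul_eq_one_left (H.J_mul z)
    rw [← eH, eJ]
    simp only [add_mul, Complex.add_re, mul_assoc, Complex.re_ofReal_mul]
    simp only [Complex.mul_re, Complex.mul_im, Complex.re_ofNat, Complex.im_ofNat]
    ring
  have hk : ∀ z, h z - 2 * (β * z).re = h 0 := fun z => by
    have := is_const_of_fderiv_eq_zero (fun z => (hd z).differentiableAt)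
      (fun z => (hd z).fderiv) z 0
    simpa using this
  have hp : ∀ z, h (z + 1) = h z ∧ h (z + τ) = h z := fun z => by
    constructor <;> simp only [hh', EE, TT, H.periodic_one, H.periodic_tau]
  have b1 : (β * 1).re = 0 := by
    have := hk 1
    rw [← zero_add (1 : ℂ), (hp 0).1, zero_add] at this
    linarith
  have b2 : (β * τ).re = 0 := by
    have := hk τ
    rw [← zero_add τ, (hp 0).2, zero_add] at this
    linarith
  have hβ0 : β = 0 := by
    simp at b1 b2
    rw [b1, zero_mul, zero_sub, neg_eq_zero] at b2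
    exact Complex.ext b1 ((mul_eq_zero.1 b2).resolve_right H.im)
  refine ⟨2 * Real.exp (h 0), by positivity, fun z => ?_⟩
  have := hk z
  rw [hβ0, zero_mul, Complex.zero_re, mul_zero, sub_zero] at this
  rw [mul_assoc, ← Real.exp_add, ← this, hh']
  rw [show Real.log (EE τ c0 ε X z).re + 2 * (ev τ (vv τ X) z).re + -2 * (ev τ (vv τ X) z).re =
    Real.log (EE τ c0 ε X z).re by ring, Real.exp_log (H.E_pos z)]

end Hyp

end Conf

open Conf in
theorem conformalThm : ConformalThm := by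
  intro τ hτ c0 hc hreal ε X hs
  have H : Hyp τ c0 ε X := ⟨hτ, hc, hreal, hs⟩
  obtain ⟨C, hC, hE⟩ := H.energy_eq
  set θ : Cf := mult (fun k => if k = 0 then 0 else (mzb τ k)⁻¹) X.q with hθ
  have rθ : Rapid τ θ := hs.rapid_q.mult (C := (2 / omMin τ).toNNReal) (p := 0) fun k => by
    have := omMin_pos hτ
    rw [pow_zero, mul_one, ← NNReal.coe_le_coe, coe_nnnorm, Real.coe_toNNReal _ (by positivity)]
    by_cases hk : k = 0
    · simp only [hk, if_true, norm_zero]
      positivity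
    · have e : ‖mzb τ k‖ = ‖om τ k‖ / 2 := by
        simpa using congrArg NNReal.toReal (nnnorm_mzb (τ := τ) k)
      rw [if_neg hk, norm_inv, e, inv_div]
      exact div_le_div_of_nonneg_left two_pos.le this (le_norm_om hτ hk)
  have e1 : dz τ θ = bq τ X := by
    funext k
    by_cases hk : k = 0
    · simp [dz, bq, mult, hθ, hk, om_zero]
    have hom : om τ k ≠ 0 := fun h => by
      have := le_norm_om hτ hk
      rw [h, norm_zero] at this
      linarith [omMin_pos hτ]
    simp only [dz, bq, mult, hθ, hk, if_false, mz, mzb]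
    field_simp
  have e2 : dzb τ θ = X.q - X.q 0 • one := by
    funext k
    by_cases hk : k = 0
    · simp [dzb, mult, hθ, hk, one]
    have hom : om τ k ≠ 0 := fun h => by
      have := le_norm_om hτ hk
      rw [h, norm_zero] at this
      linarith [omMin_pos hτ]
    simp only [dzb, mult, hθ, hk, if_false, mzb, Pi.sub_apply, Pi.smul_apply, one, smul_eq_mul,
      mul_zero, sub_zero]
    field_simp
  set Θ : ℂ → ℂ := fun z => z + X.q 0 * conj z + ev τ θ z with hΘ
  have hwΘ : ∀ z, HW Θ (TT τ X z) (ev τ X.q z) z := fun z =>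
    (((hw_id (z := z)).add ((hw_id (z := z)).conj.const_mul (X.q 0))).add (hw_ev rθ z)).congr
      (by rw [e1, TT]; simp)
      (by
        rw [e2, ev_sub hs.rapid_q.summable ((rapid_one (τ := τ)).smul _).summable, ev_smul, ev_one]
        simp)
  set U : ℂ → ℝ := fun z => (ev τ (c0 + vv τ X) z).re with hU
  have hdU : ∀ z w, fderiv ℝ U z w = 2 * (ev τ (dz τ (c0 + vv τ X)) z * w).re := fun z w => by
    have hv : HW (ev τ (c0 + vv τ X)) (ev τ (dz τ (c0 + vv τ X)) z)
        (conj (ev τ (dz τ (c0 + vv τ X)) z)) z :=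
      (hw_ev H.r_c z).congr rfl (by rw [dzb_eq_cj_dz H.cj_c, ev_cj])
    rw [hU, (hasFDerivAt_re hv).fderiv, re_dlin_apply]
  refine ⟨Θ, U, C, hC, ?_, ?_, ?_, ?_, ?_, ?_, ?_⟩
  · exact (contDiff_id.add (contDiff_const.mul Complex.conjCLE.contDiff)).add (contDiff_ev rθ)
  · exact Complex.reCLM.contDiff.comp (contDiff_ev H.r_c)
  · exact fun z => by simp only [hU, H.periodic_one]
  · exact fun z => by simp only [hU, H.periodic_tau]
  · intro z
    simp only [hΘ, map_add, map_one, H.periodic_one]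
    ring
  · intro z
    simp only [hΘ, map_add, H.periodic_tau]
    ring
  intro z w
  rw [(hwΘ z).fderiv, hdU, dlin_apply]
  have hu : (ev τ c0 z).re - U z = -(ev τ (vv τ X) z).re := by
    simp only [hU, ev_add hc.summable H.r_vv.summable, Complex.add_re]
    ring
  rw [hu, mul_neg, ← neg_mul, ← hE z]
  have hF : ev τ (fz τ c0 ε X) z = ε * ev τ (dz τ (c0 + vv τ X)) z := by rw [fz, ev_smul]
  have hr : ε * (2 * (ev τ (dz τ (c0 + vv τ X)) z * w).re) =
      2 * (ev τ (fz τ c0 ε X) z * w).re := by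
    rw [hF, mul_assoc (ε : ℂ), Complex.re_ofReal_mul]
    ring
  rw [hr]
  set T := TT τ X z
  set q := ev τ X.q z
  set F := ev τ (fz τ c0 ε X) z
  have g := H.G_eq z
  apply Complex.ofReal_injective
  have hsq : ∀ u : ℂ, ((‖u‖ : ℂ)) ^ 2 = u * conj u := fun u => by
    rw [Complex.mul_conj, Complex.normSq_eq_norm_sq]
    push_cast
    rfl
  have hre : (((F * w).re : ℝ) : ℂ) * 2 = F * w + conj (F * w) := by
    rw [Complex.add_conj]
    push_cast
    ring
  push_cast
  rw [mul_comm (2 : ℂ) (((F * w).re : ℝ) : ℂ), hre, hsq, hsq, Hyp.E_ofReal]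
  have g' := congrArg conj g
  simp only [map_add, map_mul, Complex.conj_conj, map_zero] at g' ⊢
  rw [EE]
  linear_combination w * w * g + conj w * conj w * g'

end Vale.Agent.P205.Torus
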