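import Mathlib

/-!
Fourier coefficient families over a lattice of periods in the plane: weighted absolute norms, the
convolution product, and evaluation.
-/

noncomputable section

open ComplexConjugate
open scoped ENNReal NNReal

namespace Vale.Agent.P205.Torus

/-- Indices of the frequencies. -/
abbrev Idx := ℤ × ℤ

/-- Coefficient families. -/
abbrev Cf := Idx → ℂ

/-- The frequency with phase `2π k₁` at `1` and `2π k₂` at `τ`. -/
def om (τ : ℂ) (k : Idx) : ℂ :=
  (2 * Real.pi : ℝ) * ⟨(k.1 : ℝ), ((k.2 : ℝ) - k.1 * τ.re) / τ.im⟩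

variable {τ : ℂ}

theorem om_zero : om τ 0 = 0 := Complex.ext (by simp [om]) (by simp [om])

theorem om_add (j k : Idx) : om τ (j + k) = om τ j + om τ k := by
  apply Complex.ext <;> simp [om, Complex.mul_re, Complex.mul_im] <;> ring

theorem om_neg (k : Idx) : om τ (-k) = -om τ k := by
  apply Complex.ext <;> simp [om, Complex.mul_re, Complex.mul_im] <;> ring

theorem om_re (k : Idx) : (om τ k).re = 2 * Real.pi * k.1 := by
  simp [om, Complex.mul_re]

theorem om_im (k : Idx) : (om τ k).im = 2 * Real.pi * (((k.2 : ℝ) - k.1 * τ.re) / τ.im) := by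
  simp [om, Complex.mul_im]

/-- A lower bound for the frequencies. -/
def omMin (τ : ℂ) : ℝ := 2 * Real.pi * min 1 (1 / |τ.im|)

theorem omMin_pos (hτ : τ.im ≠ 0) : 0 < omMin τ :=
  mul_pos Real.two_pi_pos (lt_min one_pos (div_pos one_pos (abs_pos.2 hτ)))

theorem le_norm_om (hτ : τ.im ≠ 0) {k : Idx} (hk : k ≠ 0) : omMin τ ≤ ‖om τ k‖ := by
  have hp := Real.two_pi_pos
  by_cases h1 : k.1 = 0
  · have h2 : k.2 ≠ 0 := fun h2 => hk (Prod.ext h1 h2)
    refine le_trans ?_ (Complex.abs_im_le_norm _)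
    rw [om_im, h1, Int.cast_zero, zero_mul, sub_zero, abs_mul, abs_of_pos hp, abs_div]
    refine mul_le_mul_of_nonneg_left ((min_le_right _ _).trans ?_) hp.le
    refine div_le_div_of_nonneg_right ?_ (abs_nonneg _)
    exact_mod_cast Int.one_le_abs h2
  · refine le_trans ?_ (Complex.abs_re_le_norm _)
    rw [om_re, abs_mul, abs_of_pos hp]
    refine mul_le_mul_of_nonneg_left ((min_le_left _ _).trans ?_) hp.le
    exact_mod_cast Int.one_le_abs h1

/-! ### Weights and norms -/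

/-- A symmetric submultiplicative weight, at least one. -/
structure IsW (w : Idx → ℝ≥0) : Prop where
  zero : w 0 = 1
  one_le : ∀ k, 1 ≤ w k
  mul_le : ∀ j k, w (j + k) ≤ w j * w k
  even : ∀ k, w (-k) = w k

/-- The weight with one derivative more. -/
def w1 (τ : ℂ) (w : Idx → ℝ≥0) : Idx → ℝ≥0 := fun k => w k * (1 + ‖om τ k‖₊)

theorem IsW.w1 {w : Idx → ℝ≥0} (h : IsW w) : IsW (Torus.w1 τ w) where
  zero := by simp [Torus.w1, h.zero, om_zero]
  one_le k := one_le_mul (h.one_le k) le_self_add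
  mul_le j k := by
    refine (mul_le_mul' (h.mul_le j k) (?_ : 1 + ‖om τ (j + k)‖₊ ≤ _)).trans_eq
      (mul_mul_mul_comm _ _ _ _)
    rw [om_add]
    refine (add_le_add le_rfl (nnnorm_add_le _ _)).trans ?_
    rw [← NNReal.coe_le_coe]
    push_cast
    nlinarith [norm_nonneg (om τ j), norm_nonneg (om τ k)]
  even k := by simp [Torus.w1, h.even, om_neg]

/-- The norm of a family. -/
def nw (w : Idx → ℝ≥0) (c : Cf) : ℝ≥0∞ := ∑' k, (w k : ℝ≥0∞) * ‖c k‖ₑ

/-- The product. -/
def conv (c d : Cf) : Cf := fun k => ∑' j, c j * d (k - j)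

/-- The family of the conjugate. -/
def cj (c : Cf) : Cf := fun k => conj (c (-k))

/-- The constant one. -/
def one : Cf := fun k => if k = 0 then 1 else 0

/-- A multiplier. -/
def mult (m : Idx → ℂ) (c : Cf) : Cf := fun k => m k * c k

/-- The real part. -/
def sym (c : Cf) : Cf := (2 : ℂ)⁻¹ • (c + cj c)

/-- The mean removed. -/
def noMean (c : Cf) : Cf := fun k => if k = 0 then 0 else c k

variable {w : Idx → ℝ≥0} {c d : Cf}

theorem nw_zero : nw w 0 = 0 := by simp [nw]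

theorem nw_mono {w' : Idx → ℝ≥0} (h : ∀ k, w' k ≤ w k) : nw w' c ≤ nw w c :=
  ENNReal.tsum_le_tsum fun k => mul_le_mul_left (ENNReal.coe_le_coe.2 (h k)) _

theorem nw_add_le : nw w (c + d) ≤ nw w c + nw w d := by
  rw [nw, nw, nw, ← ENNReal.tsum_add]
  refine ENNReal.tsum_le_tsum fun k => ?_
  rw [← mul_add]
  exact mul_le_mul_right (enorm_add_le _ _) _

theorem nw_smul (a : ℂ) : nw w (a • c) = ‖a‖ₑ * nw w c := by
  rw [nw, nw, ← ENNReal.tsum_mul_left]
  refine tsum_congr fun k => ?_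
  rw [Pi.smul_apply, smul_eq_mul, enorm_mul]
  ring

theorem nw_neg : nw w (-c) = nw w c := by simp [nw, enorm_neg]

theorem nw_cj (hw : IsW w) : nw w (cj c) = nw w c := by
  rw [nw, nw, ← (Equiv.neg Idx).tsum_eq fun k => (w k : ℝ≥0∞) * ‖c k‖ₑ]
  refine tsum_congr fun k => ?_
  simp only [cj, Equiv.neg_apply, hw.even, RCLike.enorm_conj]

theorem nw_one (hw : IsW w) : nw w one = 1 := by
  rw [nw, tsum_eq_single 0 fun k hk => by simp [one, hk]]
  simp [one, hw.zero]

theorem nw_sym_le (hw : IsW w) : nw w (sym c) ≤ nw w c := by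
  rw [sym, nw_smul]
  refine (mul_le_mul_right nw_add_le _).trans_eq ?_
  rw [nw_cj hw, ← two_mul, ← mul_assoc]
  rw [show ‖(2 : ℂ)⁻¹‖ₑ * 2 = 1 from ?_, one_mul]
  rw [enorm_inv two_ne_zero, ← ofReal_norm, Complex.norm_ofNat, ENNReal.ofReal_ofNat,
    ENNReal.inv_mul_cancel two_ne_zero ENNReal.ofNat_ne_top]

theorem nw_noMean_le : nw w (noMean c) ≤ nw w c :=
  ENNReal.tsum_le_tsum fun k => mul_le_mul_right (by
    by_cases h : k = 0 <;> simp [noMean, h]) _

theorem nw_mult_le {w' : Idx → ℝ≥0} {m : Idx → ℂ} {C : ℝ≥0}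
    (h : ∀ k, w' k * ‖m k‖₊ ≤ C * w k) : nw w' (mult m c) ≤ C * nw w c := by
  rw [nw, nw, ← ENNReal.tsum_mul_left]
  refine ENNReal.tsum_le_tsum fun k => ?_
  rw [mult, enorm_mul, ← mul_assoc, ← mul_assoc]
  refine mul_le_mul_left ?_ _
  rw [enorm_eq_nnnorm, ← ENNReal.coe_mul, ← ENNReal.coe_mul, ENNReal.coe_le_coe]
  exact h k

theorem nw_conv_le (hw : IsW w) : nw w (conv c d) ≤ nw w c * nw w d := by
  calc nw w (conv c d)
      ≤ ∑' k, ∑' j, ((w j : ℝ≥0∞) * ‖c j‖ₑ) * ((w (k - j) : ℝ≥0∞) * ‖d (k - j)‖ₑ) := by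
        refine ENNReal.tsum_le_tsum fun k => ?_
        refine (mul_le_mul_right (enorm_tsum_le_tsum_enorm) _).trans ?_
        rw [← ENNReal.tsum_mul_left]
        refine ENNReal.tsum_le_tsum fun j => ?_
        rw [enorm_mul, mul_mul_mul_comm]
        refine mul_le_mul_left ?_ _
        rw [← ENNReal.coe_mul, ENNReal.coe_le_coe]
        simpa using hw.mul_le j (k - j)
    _ = nw w c * nw w d := by
        rw [ENNReal.tsum_comm, nw, nw, ← ENNReal.tsum_mul_right]
        refine tsum_congr fun j => ?_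
        rw [ENNReal.tsum_mul_left]
        exact congrArg _ ((Equiv.subRight j).tsum_eq fun k => (w k : ℝ≥0∞) * ‖d k‖ₑ)

theorem enorm_le_nw (hw : IsW w) (k : Idx) : ‖c k‖ₑ ≤ nw w c :=
  (le_mul_of_one_le_left' (ENNReal.one_le_coe_iff.2 (hw.one_le k))).trans (ENNReal.le_tsum k)

theorem summable_norm_of_nw (hw : ∀ k, 1 ≤ w k) (h : nw w c ≠ ∞) : Summable fun k => ‖c k‖ := by
  have h' : ∑' k, ((‖c k‖₊ : ℝ≥0) : ℝ≥0∞) ≠ ∞ := by
    refine ne_top_of_le_ne_top h (ENNReal.tsum_le_tsum fun k => ?_)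
    rw [← enorm_eq_nnnorm]
    exact le_mul_of_one_le_left' (ENNReal.one_le_coe_iff.2 (hw k))
  exact NNReal.summable_coe.2 (ENNReal.tsum_coe_ne_top_iff_summable.1 h')

/-! ### Evaluation -/

/-- The phase of a frequency. -/
def ph (τ : ℂ) (k : Idx) (z : ℂ) : ℝ := (conj (om τ k) * z).re

/-- The characters. -/
def ch (τ : ℂ) (k : Idx) (z : ℂ) : ℂ := Complex.exp ((ph τ k z : ℝ) * Complex.I)

/-- The function of a family. -/
def ev (τ : ℂ) (c : Cf) (z : ℂ) : ℂ := ∑' k, c k * ch τ k z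

theorem norm_ch (k : Idx) (z : ℂ) : ‖ch τ k z‖ = 1 := Complex.norm_exp_ofReal_mul_I _

theorem ch_add (j k : Idx) (z : ℂ) : ch τ (j + k) z = ch τ j z * ch τ k z := by
  rw [ch, ch, ch, ← Complex.exp_add, ← add_mul, ← Complex.ofReal_add]
  congr 3
  simp [ph, om_add, add_mul]

theorem ch_neg (k : Idx) (z : ℂ) : ch τ (-k) z = conj (ch τ k z) := by
  rw [ch, ch, ← Complex.exp_conj]
  congr 1
  simp [ph, om_neg]
  ring

theorem ch_zero (z : ℂ) : ch τ 0 z = 1 := by simp [ch, ph, om_zero]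

theorem ch_period (hτ : τ.im ≠ 0) (k : Idx) (z : ℂ) (a b : ℤ) :
    ch τ k (z + a + b * τ) = ch τ k z := by
  have e : ph τ k (z + a + b * τ) = ph τ k z + (((a * k.1 + b * k.2 : ℤ) : ℝ) * (2 * Real.pi)) := by
    simp only [ph, mul_add, Complex.add_re, Complex.mul_re, Complex.conj_re, Complex.conj_im,
      Complex.mul_im, Complex.intCast_re, Complex.intCast_im, om_re, om_im]
    push_cast
    field_simp
    ring
  rw [ch, ch, e, Complex.ofReal_add, add_mul, Complex.exp_add]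
  refine mul_eq_left₀ (Complex.exp_ne_zero _) |>.2 ?_
  have := Complex.exp_int_mul_two_pi_mul_I (a * k.1 + b * k.2)
  rw [← this]
  congr 1
  push_cast
  ring

theorem summable_ev (hc : Summable fun k => ‖c k‖) (z : ℂ) : Summable fun k => c k * ch τ k z :=
  Summable.of_norm (by simpa [norm_ch] using hc)

theorem ev_one (z : ℂ) : ev τ one z = 1 := by
  rw [ev, tsum_eq_single 0 fun k hk => by simp [one, hk]]
  simp [one, ch_zero]

theorem ev_zero_fam (z : ℂ) : ev τ 0 z = 0 := by simp [ev]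

theorem ev_add (hc : Summable fun k => ‖c k‖) (hd : Summable fun k => ‖d k‖) (z : ℂ) :
    ev τ (c + d) z = ev τ c z + ev τ d z := by
  simp only [ev, Pi.add_apply, add_mul]
  exact (summable_ev hc z).tsum_add (summable_ev hd z)

theorem ev_smul (a : ℂ) (z : ℂ) : ev τ (a • c) z = a * ev τ c z := by
  simp only [ev, Pi.smul_apply, smul_eq_mul, mul_assoc]
  exact tsum_mul_left

theorem ev_neg (z : ℂ) : ev τ (-c) z = -ev τ c z := by
  simp only [ev, Pi.neg_apply, neg_mul, tsum_neg]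

theorem ev_cj (z : ℂ) : ev τ (cj c) z = conj (ev τ c z) := by
  rw [ev, ev, Complex.conj_tsum, ← (Equiv.neg Idx).tsum_eq]
  exact tsum_congr fun k => by simp [cj, ch_neg]

theorem ev_conv (hc : Summable fun k => ‖c k‖) (hd : Summable fun k => ‖d k‖) (z : ℂ) :
    ev τ (conv c d) z = ev τ c z * ev τ d z := by
  set f : Idx → ℂ := fun k => c k * ch τ k z with hf
  set g : Idx → ℂ := fun k => d k * ch τ k z with hg
  have hfn : Summable fun k => ‖f k‖ := by simpa [hf, norm_ch] using hc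
  have hgn : Summable fun k => ‖g k‖ := by simpa [hg, norm_ch] using hd
  have hp : Summable fun x : Idx × Idx => f x.1 * g x.2 := summable_mul_of_summable_norm hfn hgn
  let e : Idx × Idx ≃ Idx × Idx :=
    { toFun := fun x => (x.2, x.1 - x.2)
      invFun := fun y => (y.1 + y.2, y.1)
      left_inv := fun x => by simp
      right_inv := fun y => by simp }
  rw [ev, ev, ev, tsum_mul_tsum_of_summable_norm hfn hgn, ← e.tsum_eq]
  refine Eq.trans ?_ (e.summable_iff.2 hp).tsum_prod.symm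
  refine tsum_congr fun k => ?_
  rw [conv, ← tsum_mul_right]
  refine tsum_congr fun j => ?_
  simp only [e, Function.comp_apply, Equiv.coe_fn_mk, hf, hg]
  rw [mul_mul_mul_comm (c j), ← ch_add, add_sub_cancel]

end Vale.Agent.P205.Torus
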