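import Vale.Agent.P205.Torus.Coef

/-!
Derivatives of the functions of rapidly decreasing families, as multipliers.
-/

noncomputable section

open ComplexConjugate
open scoped ENNReal NNReal

namespace Vale.Agent.P205.Torus

variable {τ : ℂ}

/-! ### Complex form of the real differential -/

/-- The real linear map `w ↦ a w + b conj w`. -/
def dlin (a b : ℂ) : ℂ →L[ℝ] ℂ :=
  a • ContinuousLinearMap.id ℝ ℂ + b • (Complex.conjCLE : ℂ →L[ℝ] ℂ)

@[simp] theorem dlin_apply (a b w : ℂ) : dlin a b w = a * w + b * conj w := by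
  simp [dlin]

/-- The function `f` has the two Wirtinger derivatives `a`, `b` at `z`. -/
def HW (f : ℂ → ℂ) (a b : ℂ) (z : ℂ) : Prop := HasFDerivAt f (dlin a b) z

variable {f g : ℂ → ℂ} {a b a' b' z : ℂ}

theorem HW.unique (h : HW f a b z) (h' : HW f a' b' z) : a = a' ∧ b = b' := by
  have e := HasFDerivAt.unique h h'
  have e1 := DFunLike.congr_fun e 1
  have e2 := DFunLike.congr_fun e Complex.I
  simp only [dlin_apply, map_one, mul_one, Complex.conj_I, mul_neg] at e1 e2
  have e3 : a - b = a' - b' := mul_right_cancel₀ Complex.I_ne_zero (by linear_combination e2)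
  constructor
  · linear_combination (1 / 2 : ℂ) * e1 + (1 / 2 : ℂ) * e3
  · linear_combination (1 / 2 : ℂ) * e1 - (1 / 2 : ℂ) * e3

theorem hw_const (c : ℂ) : HW (fun _ => c) 0 0 z :=
  (hasFDerivAt_const c z).congr_fderiv (ContinuousLinearMap.ext fun w => by simp)

theorem hw_id : HW (fun w => w) 1 0 z :=
  (hasFDerivAt_id z).congr_fderiv (ContinuousLinearMap.ext fun w => by simp)

theorem HW.congr (h : HW f a b z) (ha : a = a') (hb : b = b') : HW f a' b' z := ha ▸ hb ▸ h

theorem HW.congr_fun (h : HW f a b z) (e : ∀ w, f w = g w) : HW g a b z := by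
  rwa [funext e] at h

theorem HW.add (h : HW f a b z) (h' : HW g a' b' z) :
    HW (fun w => f w + g w) (a + a') (b + b') z :=
  (HasFDerivAt.add h h').congr_fderiv (ContinuousLinearMap.ext fun w => by simp; ring)

theorem HW.sub (h : HW f a b z) (h' : HW g a' b' z) :
    HW (fun w => f w - g w) (a - a') (b - b') z :=
  (HasFDerivAt.sub h h').congr_fderiv (ContinuousLinearMap.ext fun w => by simp; ring)

theorem HW.mul (h : HW f a b z) (h' : HW g a' b' z) :
    HW (fun w => f w * g w) (a * g z + f z * a') (b * g z + f z * b') z :=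
  (HasFDerivAt.mul h h').congr_fderiv (ContinuousLinearMap.ext fun w => by simp; ring)

theorem HW.conj (h : HW f a b z) : HW (fun w => conj (f w)) (conj b) (conj a) z :=
  ((Complex.conjCLE : ℂ →L[ℝ] ℂ).hasFDerivAt.comp z h).congr_fderiv
    (ContinuousLinearMap.ext fun w => by simp; ring)

theorem HW.const_mul (c : ℂ) (h : HW f a b z) : HW (fun w => c * f w) (c * a) (c * b) z :=
  ((hw_const c).mul h).congr (by ring) (by ring)

/-! ### Rapid decrease -/

/-- Polynomial weights. -/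
def wp (τ : ℂ) (m : ℕ) : Idx → ℝ≥0 := fun k => (1 + ‖om τ k‖₊) ^ m

theorem isW_one : IsW fun _ => 1 where
  zero := rfl
  one_le _ := le_rfl
  mul_le _ _ := (one_mul _).ge
  even _ := rfl

theorem isW_wp : ∀ m, IsW (wp τ m)
  | 0 => by
    have : wp τ 0 = fun _ => 1 := funext fun k => pow_zero _
    rw [this]
    exact isW_one
  | m + 1 => by
    have : wp τ (m + 1) = w1 τ (wp τ m) := funext fun k => pow_succ _ _
    rw [this]
    exact (isW_wp m).w1

/-- Decrease faster than every power. -/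
def Rapid (τ : ℂ) (c : Cf) : Prop := ∀ m, nw (wp τ m) c ≠ ∞

variable {c d : Cf}

theorem Rapid.summable (h : Rapid τ c) : Summable fun k => ‖c k‖ :=
  summable_norm_of_nw (isW_wp 0).one_le (h 0)

theorem Rapid.add (h : Rapid τ c) (h' : Rapid τ d) : Rapid τ (c + d) := fun m =>
  ne_top_of_le_ne_top (ENNReal.add_ne_top.2 ⟨h m, h' m⟩) nw_add_le

theorem Rapid.smul (a : ℂ) (h : Rapid τ c) : Rapid τ (a • c) := fun m => by
  rw [nw_smul]
  exact ENNReal.mul_ne_top enorm_ne_top (h m)

theorem Rapid.neg (h : Rapid τ c) : Rapid τ (-c) := fun m => by rw [nw_neg]; exact h m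

theorem Rapid.cj (h : Rapid τ c) : Rapid τ (cj c) := fun m => by rw [nw_cj (isW_wp m)]; exact h m

theorem Rapid.sym (h : Rapid τ c) : Rapid τ (sym c) := fun m =>
  ne_top_of_le_ne_top (h m) (nw_sym_le (isW_wp m))

theorem Rapid.noMean (h : Rapid τ c) : Rapid τ (noMean c) := fun m =>
  ne_top_of_le_ne_top (h m) nw_noMean_le

theorem Rapid.conv (h : Rapid τ c) (h' : Rapid τ d) : Rapid τ (conv c d) := fun m =>
  ne_top_of_le_ne_top (ENNReal.mul_ne_top (h m) (h' m)) (nw_conv_le (isW_wp m))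

theorem rapid_one : Rapid τ one := fun m => by rw [nw_one (isW_wp m)]; exact ENNReal.one_ne_top

theorem Rapid.mult (h : Rapid τ c) {μ : Idx → ℂ} {C : ℝ≥0} {p : ℕ}
    (hμ : ∀ k, ‖μ k‖₊ ≤ C * (1 + ‖om τ k‖₊) ^ p) : Rapid τ (mult μ c) := fun m => by
  refine ne_top_of_le_ne_top (ENNReal.mul_ne_top ENNReal.coe_ne_top (h (m + p)))
    (nw_mult_le (w := wp τ (m + p)) (C := C) fun k => ?_)
  refine (mul_le_mul_right (hμ k) _).trans_eq ?_
  simp only [wp, pow_add]
  ring

/-! ### Differentiation -/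

/-- The multiplier of `∂`. -/
def mz (τ : ℂ) : Idx → ℂ := fun k => Complex.I / 2 * conj (om τ k)

/-- The multiplier of `∂̄`. -/
def mzb (τ : ℂ) : Idx → ℂ := fun k => Complex.I / 2 * om τ k

/-- The family of `∂`. -/
def dz (τ : ℂ) (c : Cf) : Cf := mult (mz τ) c

/-- The family of `∂̄`. -/
def dzb (τ : ℂ) (c : Cf) : Cf := mult (mzb τ) c

theorem nnnorm_mz (k : Idx) : ‖mz τ k‖₊ = ‖om τ k‖₊ / 2 := by
  simp [mz, nnnorm_mul, div_eq_mul_inv]
  ring

theorem nnnorm_mzb (k : Idx) : ‖mzb τ k‖₊ = ‖om τ k‖₊ / 2 := by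
  simp [mzb, nnnorm_mul, div_eq_mul_inv]
  ring

theorem half_le_one_add (x : ℝ≥0) : x / 2 ≤ 1 * (1 + x) := by
  rw [one_mul]
  exact (half_le_self zero_le).trans le_add_self

theorem Rapid.dz (h : Rapid τ c) : Rapid τ (dz τ c) :=
  h.mult (C := 1) (p := 1) fun k => by rw [pow_one, nnnorm_mz]; exact half_le_one_add _

theorem Rapid.dzb (h : Rapid τ c) : Rapid τ (dzb τ c) :=
  h.mult (C := 1) (p := 1) fun k => by rw [pow_one, nnnorm_mzb]; exact half_le_one_add _

theorem hw_ch (τ : ℂ) (k : Idx) (z : ℂ) :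
    HW (ch τ k) (mz τ k * ch τ k z) (mzb τ k * ch τ k z) z := by
  set L : ℂ →L[ℝ] ℂ :=
    dlin (Complex.I / 2 * conj (om τ k)) (Complex.I / 2 * om τ k) with hL
  have hlin : ∀ w, L w = (ph τ k w : ℝ) * Complex.I := fun w => by
    have e := Complex.add_conj (conj (om τ k) * w)
    rw [map_mul, Complex.conj_conj, Complex.ofReal_mul, Complex.ofReal_ofNat] at e
    rw [hL, dlin_apply, ph]
    linear_combination (Complex.I / 2) * e
  have h : HasFDerivAt (fun w => Complex.exp (L w)) (Complex.exp (L z) • L) z :=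
    (Complex.hasDerivAt_exp (L z)).comp_hasFDerivAt z L.hasFDerivAt
  simp only [hlin] at h
  refine h.congr_fderiv (ContinuousLinearMap.ext fun w => ?_)
  rw [smul_apply, hL, dlin_apply, dlin_apply, smul_eq_mul, mz, mzb, ch]
  ring

theorem nnnorm_mz_le (c : Cf) (k : Idx) : ‖c k * mz τ k‖ + ‖c k * mzb τ k‖ ≤ ‖om τ k‖ * ‖c k‖ := by
  have h1 : ‖mz τ k‖ = ‖om τ k‖ / 2 := by
    simpa using congrArg NNReal.toReal (nnnorm_mz (τ := τ) k)
  have h2 : ‖mzb τ k‖ = ‖om τ k‖ / 2 := by
    simpa using congrArg NNReal.toReal (nnnorm_mzb (τ := τ) k)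
  rw [norm_mul, norm_mul, h1, h2]
  exact le_of_eq (by ring)

theorem norm_dlin_le (a b : ℂ) : ‖dlin a b‖ ≤ ‖a‖ + ‖b‖ := by
  refine ContinuousLinearMap.opNorm_le_bound _ (by positivity) fun w => ?_
  rw [dlin_apply, add_mul]
  refine (norm_add_le _ _).trans_eq ?_
  rw [norm_mul, norm_mul, RCLike.norm_conj]

/-- The derivative of a rapid family's function. -/
theorem hw_ev (h : Rapid τ c) (z : ℂ) : HW (ev τ c) (ev τ (dz τ c) z) (ev τ (dzb τ c) z) z := by
  have hu : Summable fun k => ‖om τ k‖ * ‖c k‖ := by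
    refine Summable.of_nonneg_of_le (fun k => by positivity) (fun k => ?_)
      (summable_norm_of_nw (w := fun _ => 1) (c := fun k => ((1 + ‖om τ k‖ : ℝ) : ℂ) * c k)
        (fun _ => le_rfl) ?_)
    · rw [norm_mul, Complex.norm_of_nonneg (by positivity)]
      exact mul_le_mul_of_nonneg_right (by linarith) (norm_nonneg _)
    · refine ne_top_of_le_ne_top (h 1) (ENNReal.tsum_le_tsum fun k => ?_)
      rw [enorm_mul, wp, pow_one, ENNReal.coe_one, one_mul]
      refine mul_le_mul_left (le_of_eq ?_) _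
      rw [enorm_eq_nnnorm, ENNReal.coe_inj, ← NNReal.coe_inj, coe_nnnorm,
        Complex.norm_of_nonneg (by positivity)]
      simp
  have hs : ∀ (k : Idx) (w : ℂ), HasFDerivAt (fun w => c k * ch τ k w)
      (dlin (c k * mz τ k * ch τ k w) (c k * mzb τ k * ch τ k w)) w := fun k w =>
    ((hw_ch τ k w).const_mul (c k)).congr (by ring) (by ring)
  have hb : ∀ (k : Idx) (w : ℂ),
      ‖dlin (c k * mz τ k * ch τ k w) (c k * mzb τ k * ch τ k w)‖ ≤ ‖om τ k‖ * ‖c k‖ := fun k w => by
    refine (norm_dlin_le _ _).trans ?_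
    rw [norm_mul, norm_mul _ (ch τ k w), norm_ch, mul_one, mul_one]
    exact nnnorm_mz_le c k
  have hd := hasFDerivAt_tsum hu hs hb (summable_ev h.summable z) z
  refine hd.congr_fderiv (ContinuousLinearMap.ext fun w => ?_)
  have hsd : Summable fun k => dlin (c k * mz τ k * ch τ k z) (c k * mzb τ k * ch τ k z) :=
    Summable.of_norm_bounded hu fun k => hb k z
  have e := (ContinuousLinearMap.apply ℝ ℂ w).map_tsum hsd
  simp only [ContinuousLinearMap.apply_apply] at e
  rw [e]
  simp only [dlin_apply, ev, dz, dzb, mult]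
  rw [← tsum_mul_right, ← tsum_mul_right, ← Summable.tsum_add]
  · exact tsum_congr fun k => by ring
  · exact (summable_ev h.dz.summable z).mul_right w
  · exact (summable_ev h.dzb.summable z).mul_right _

theorem contDiff_dlin {n : ℕ∞} {A B : ℂ → ℂ} (hA : ContDiff ℝ n A) (hB : ContDiff ℝ n B) :
    ContDiff ℝ n fun z => dlin (A z) (B z) :=
  (hA.smul contDiff_const).add (hB.smul contDiff_const)

/-- Rapid families have smooth functions. -/
theorem contDiff_ev (h : Rapid τ c) : ContDiff ℝ (⊤ : ℕ∞) (ev τ c) := by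
  rw [contDiff_infty]
  intro n
  induction n generalizing c with
  | zero =>
    exact contDiff_zero.2 (continuous_iff_continuousAt.2 fun z => (hw_ev h z).continuousAt)
  | succ n ih =>
    rw [Nat.cast_succ, contDiff_succ_iff_fderiv]
    refine ⟨fun z => (hw_ev h z).differentiableAt, fun hn => absurd hn (WithTop.natCast_ne_top n), ?_⟩
    have e : fderiv ℝ (ev τ c) = fun z => dlin (ev τ (dz τ c) z) (ev τ (dzb τ c) z) :=
      funext fun z => (hw_ev h z).fderiv
    rw [e]
    exact contDiff_dlin (n := (n : ℕ∞)) (ih h.dz) (ih h.dzb)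

theorem ev_period (hτ : τ.im ≠ 0) (c : Cf) (z : ℂ) (a b : ℤ) :
    ev τ c (z + a + b * τ) = ev τ c z :=
  tsum_congr fun k => by rw [ch_period hτ]

theorem norm_ev_le (h : Summable fun k => ‖c k‖) (z : ℂ) : ‖ev τ c z‖ ≤ ∑' k, ‖c k‖ := by
  have e : (fun k => ‖c k * ch τ k z‖) = fun k => ‖c k‖ := funext fun k => by
    rw [norm_mul, norm_ch, mul_one]
  have h' : Summable fun k => ‖c k * ch τ k z‖ := e ▸ h
  exact (norm_tsum_le_tsum_norm h').trans_eq (by rw [e])

end Vale.Agent.P205.Torus
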