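import Vale.Agent.P205.Torus.Pins

/-!
Closed flat tori in the unit sphere: a circle action applied to a horizontal curve of prescribed
length and holonomy.
-/

noncomputable section

open MeasureTheory
open scoped ContDiff RealInnerProductSpace

namespace Vale.Agent.P205.Torus

namespace Flat

variable {b r T : ℝ}

/-- The profile. -/
def pp (b r s : ℝ) : ℝ := b * (1 + r * Real.cos (2 * Real.pi * s))

/-- The derivative of the profile. -/
def pp' (b r s : ℝ) : ℝ := b * (r * (-Real.sin (2 * Real.pi * s) * (2 * Real.pi)))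

/-- The primitive of the squared profile. -/
def PP (b r s : ℝ) : ℝ :=
  b ^ 2 * (s * (1 + r ^ 2 / 2) + r * Real.sin (2 * Real.pi * s) / Real.pi
    + r ^ 2 * Real.sin (4 * Real.pi * s) / (8 * Real.pi))

/-- The speed of the horizontal curve. -/
def sig (b r T s : ℝ) : ℝ :=
  Real.sqrt ((pp' b r s / (1 + pp b r s ^ 2)) ^ 2 + (T * pp b r s) ^ 2)

/-- The modulus of the first component. -/
def aa (b r s : ℝ) : ℝ := pp b r s / Real.sqrt (1 + pp b r s ^ 2)

/-- The modulus of the second component. -/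
def cc (b r s : ℝ) : ℝ := 1 / Real.sqrt (1 + pp b r s ^ 2)

theorem hasDerivAt_pp (s : ℝ) : HasDerivAt (pp b r) (pp' b r s) s :=
  (((((hasDerivAt_id s).const_mul (2 * Real.pi)).cos.const_mul r).const_add 1).const_mul b
    ).congr_deriv (by simp only [pp', id, mul_one])

theorem hasDerivAt_PP (s : ℝ) : HasDerivAt (PP b r) (pp b r s ^ 2) s := by
  have h1 : HasDerivAt (fun s => Real.sin (2 * Real.pi * s))
      (Real.cos (2 * Real.pi * s) * (2 * Real.pi)) s := by
    simpa using ((hasDerivAt_id s).const_mul (2 * Real.pi)).sin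
  have h2 : HasDerivAt (fun s => Real.sin (4 * Real.pi * s))
      (Real.cos (4 * Real.pi * s) * (4 * Real.pi)) s := by
    simpa using ((hasDerivAt_id s).const_mul (4 * Real.pi)).sin
  refine ((((hasDerivAt_id s).mul_const (1 + r ^ 2 / 2)).add ((h1.const_mul r).div_const
    Real.pi)).add ((h2.const_mul (r ^ 2)).div_const (8 * Real.pi))).const_mul (b ^ 2)
      |>.congr_deriv ?_
  have hc : Real.cos (4 * Real.pi * s) = 2 * Real.cos (2 * Real.pi * s) ^ 2 - 1 := by
    rw [← Real.cos_two_mul]; ring_nf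
  have := Real.pi_pos
  simp only [pp, hc]
  field_simp
  ring

theorem one_add_pp_pos (s : ℝ) : 0 < 1 + pp b r s ^ 2 := by positivity

theorem pp_ge (hb : 0 ≤ b) (hr : r ∈ Set.Icc (0 : ℝ) (4 / 5)) (s : ℝ) : b / 5 ≤ pp b r s := by
  have := Real.neg_one_le_cos (2 * Real.pi * s)
  rw [pp, div_eq_mul_inv]
  refine mul_le_mul_of_nonneg_left ?_ hb
  nlinarith [hr.1, hr.2]

theorem hasDerivAt_aa (s : ℝ) : HasDerivAt (aa b r)
    (pp' b r s / Real.sqrt (1 + pp b r s ^ 2) ^ 3) s := by
  have hp := hasDerivAt_pp (b := b) (r := r) s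
  have h0 := one_add_pp_pos (b := b) (r := r) s
  refine (hp.div (((hp.fun_pow 2).const_add 1).sqrt h0.ne') (Real.sqrt_ne_zero'.2 h0)).congr_deriv ?_
  have h1 := Real.sq_sqrt h0.le
  have h2 := Real.sqrt_pos.2 h0
  field_simp
  push_cast
  linear_combination 2 * (pp' b r s) * h1

theorem hasDerivAt_cc (s : ℝ) : HasDerivAt (cc b r)
    (-(pp b r s * pp' b r s) / Real.sqrt (1 + pp b r s ^ 2) ^ 3) s := by
  have hp := hasDerivAt_pp (b := b) (r := r) s
  have h0 := one_add_pp_pos (b := b) (r := r) s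
  refine ((hasDerivAt_const s (1 : ℝ)).div (((hp.fun_pow 2).const_add 1).sqrt h0.ne')
    (Real.sqrt_ne_zero'.2 h0)).congr_deriv ?_
  have h2 := Real.sqrt_pos.2 h0
  field_simp
  push_cast
  ring

theorem contDiff_pp : ContDiff ℝ ∞ (pp b r) := by unfold pp; fun_prop

theorem contDiff_PP : ContDiff ℝ ∞ (PP b r) := by unfold PP; fun_prop

theorem contDiff_aa : ContDiff ℝ ∞ (aa b r) :=
  contDiff_pp.div ((contDiff_const.add (contDiff_pp.pow 2)).sqrt fun s => (one_add_pp_pos s).ne')
    fun s => Real.sqrt_ne_zero'.2 (one_add_pp_pos s)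

theorem contDiff_cc : ContDiff ℝ ∞ (cc b r) :=
  contDiff_const.div ((contDiff_const.add (contDiff_pp.pow 2)).sqrt fun s => (one_add_pp_pos s).ne')
    fun s => Real.sqrt_ne_zero'.2 (one_add_pp_pos s)

theorem le_sig (hT : 0 ≤ T) (hb : 0 ≤ b) (hr : r ∈ Set.Icc (0 : ℝ) (4 / 5)) (s : ℝ) :
    T * (b / 5) ≤ sig b r T s := by
  refine (mul_le_mul_of_nonneg_left (pp_ge hb hr s) hT).trans ?_
  rw [sig]
  exact Real.le_sqrt_of_sq_le (le_add_of_nonneg_left (sq_nonneg _))

theorem contDiff_sig (hT : 0 < T) (hb : 0 < b) (hr : r ∈ Set.Icc (0 : ℝ) (4 / 5)) :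
    ContDiff ℝ ∞ (sig b r T) := by
  have h1 : ContDiff ℝ ∞ (pp' b r) := by unfold pp'; fun_prop
  refine (((h1.div (contDiff_const.add (contDiff_pp.pow 2)) fun s => (one_add_pp_pos s).ne').pow
    2).add ((contDiff_const.mul contDiff_pp).pow 2)).sqrt fun s => ?_
  have : 0 < T * pp b r s := mul_pos hT ((by linarith : (0 : ℝ) < b / 5).trans_le (pp_ge hb.le hr s))
  positivity

theorem cos_add_one (s : ℝ) : Real.cos (2 * Real.pi * (s + 1)) = Real.cos (2 * Real.pi * s) := by
  rw [mul_add, mul_one, Real.cos_add_two_pi]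

theorem sin_add_one (s : ℝ) : Real.sin (2 * Real.pi * (s + 1)) = Real.sin (2 * Real.pi * s) := by
  rw [mul_add, mul_one, Real.sin_add_two_pi]

theorem pp_periodic : Function.Periodic (pp b r) 1 := fun s => by simp only [pp, cos_add_one]

theorem sig_periodic : Function.Periodic (sig b r T) 1 := fun s => by
  simp only [sig, pp', pp, cos_add_one, sin_add_one]

theorem PP_add_one (s : ℝ) : PP b r (s + 1) = PP b r s + b ^ 2 * (1 + r ^ 2 / 2) := by
  have h4 : Real.sin (4 * Real.pi * (s + 1)) = Real.sin (4 * Real.pi * s) := by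
    rw [show 4 * Real.pi * (s + 1) = 4 * Real.pi * s + 2 * Real.pi + 2 * Real.pi by ring,
      Real.sin_add_two_pi, Real.sin_add_two_pi]
  simp only [PP, sin_add_one, h4]
  ring

theorem integral_sig_le (hT : 0 < T) (hb : 0 < b) (hr : r ∈ Set.Icc (0 : ℝ) (4 / 5)) :
    ∫ s in (0 : ℝ)..1, sig b r T s ≤ T * b + 2 * Real.pi * (b * r) := by
  set F : ℝ → ℝ := fun s => T * (b * (s + r * Real.sin (2 * Real.pi * s) / (2 * Real.pi)))
    + 2 * Real.pi * (b * r) * s
  have hF : ∀ s, HasDerivAt F (T * pp b r s + 2 * Real.pi * (b * r)) s := fun s => by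
    refine (((((hasDerivAt_id s).add ((((hasDerivAt_id s).const_mul (2 * Real.pi)).sin.const_mul
      r).div_const (2 * Real.pi)))).const_mul b).const_mul T).add
        ((hasDerivAt_id s).const_mul (2 * Real.pi * (b * r))) |>.congr_deriv ?_
    simp only [pp, id]
    field_simp
  have hc : Continuous fun s => T * pp b r s + 2 * Real.pi * (b * r) :=
    (continuous_const.mul contDiff_pp.continuous).add continuous_const
  refine (intervalIntegral.integral_mono_on zero_le_one
    ((contDiff_sig hT hb hr).continuous.intervalIntegrable 0 1) (hc.intervalIntegrable 0 1)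
    fun s _ => ?_).trans_eq ?_
  · have h1 : 0 ≤ T * pp b r s :=
      mul_nonneg hT.le ((by linarith : (0 : ℝ) ≤ b / 5).trans (pp_ge hb.le hr s))
    have h2 : |pp' b r s / (1 + pp b r s ^ 2)| ≤ 2 * Real.pi * (b * r) := by
      rw [abs_div, abs_of_pos (one_add_pp_pos s)]
      refine (div_le_self (abs_nonneg _) (le_add_of_nonneg_right (sq_nonneg _))).trans ?_
      have hs := Real.abs_sin_le_one (2 * Real.pi * s)
      simp only [pp', abs_mul, abs_neg, abs_of_pos hb, abs_of_nonneg hr.1,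
        abs_of_pos Real.pi_pos, abs_two]
      have h := mul_le_mul_of_nonneg_left hs
        (mul_nonneg (mul_nonneg hb.le hr.1) (by positivity : (0 : ℝ) ≤ 2 * Real.pi))
      linarith
    have h0 : 0 ≤ T * pp b r s + 2 * Real.pi * (b * r) := add_nonneg h1
      ((abs_nonneg _).trans h2)
    rw [sig, Real.sqrt_le_left h0]
    have h3 := sq_le_sq' (by linarith [neg_abs_le (pp' b r s / (1 + pp b r s ^ 2))])
      ((le_abs_self _).trans h2)
    nlinarith [mul_nonneg h1 ((abs_nonneg _).trans h2)]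
  · rw [intervalIntegral.integral_eq_sub_of_hasDerivAt (fun s _ => hF s)
      (hc.intervalIntegrable 0 1)]
    simp [F]

/-- A horizontal curve of length `L` whose two holonomy angles are prescribed. -/
theorem exists_profile {T S L : ℝ} (hL : 1000 ≤ L) (hT : L ≤ T) (hT' : T ≤ L + 7)
    (hS : 11 / 10 * L ≤ S) (hS' : S ≤ 11 / 10 * L + 7) :
    ∃ b r : ℝ, 0 < b ∧ r ∈ Set.Icc (0 : ℝ) (4 / 5) ∧ T * (b ^ 2 * (1 + r ^ 2 / 2)) = S ∧
      ∫ s in (0 : ℝ)..1, sig b r T s = L := by
  have hT0 : 0 < T := by linarith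
  have hS0 : 0 < S := by linarith
  set β : ℝ → ℝ := fun r => Real.sqrt (S / (T * (1 + r ^ 2 / 2))) with hβ
  have hβ0 : ∀ r, 0 < β r := fun r => Real.sqrt_pos.2 (by positivity)
  have hβS : ∀ r, T * (β r ^ 2 * (1 + r ^ 2 / 2)) = S := fun r => by
    rw [hβ, Real.sq_sqrt (by positivity)]
    field_simp
  set l : ℝ → ℝ := fun r => ∫ s in (0 : ℝ)..1, sig (β r) r T s with hl
  have hbc : Continuous β := Real.continuous_sqrt.comp
    (continuous_const.div (by fun_prop) fun r => by positivity)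
  have hcont : Continuous l := by
    refine intervalIntegral.continuous_parametric_intervalIntegral_of_continuous' ?_ 0 1
    have h : Continuous fun q : ℝ × ℝ => sig (β q.1) q.1 T q.2 := by
      unfold sig pp' pp
      refine Real.continuous_sqrt.comp (((Continuous.div ?_ ?_ fun q => ?_).pow 2).add ?_)
      · fun_prop
      · fun_prop
      · positivity
      · fun_prop
    exact h
  have h0 : L ≤ l 0 := by
    have e : ∀ s, sig (β 0) 0 T s = T * β 0 := fun s => by
      simp [sig, pp, pp', Real.sqrt_sq (mul_nonneg hT0.le (hβ0 0).le)]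
    have h1 : l 0 = T * β 0 := by simp [hl, e]
    rw [h1]
    nlinarith [hβS 0, mul_pos hT0 (hβ0 0)]
  have h1 : l (4 / 5) ≤ L := by
    refine (integral_sig_le hT0 (hβ0 _) ⟨by norm_num, le_rfl⟩).trans ?_
    have hb : T * (β (4 / 5) ^ 2 * (1 + (4 / 5 : ℝ) ^ 2 / 2)) = S := hβS _
    norm_num at hb
    have hb1 : β (4 / 5) ≤ 1 := by
      by_contra h
      nlinarith [mul_lt_mul_of_pos_left (one_lt_pow₀ (not_le.1 h) two_ne_zero) hT0]
    have hTb : T * β (4 / 5) ≤ L - 7 := by
      nlinarith [mul_pos hT0 (hβ0 (4 / 5)), mul_le_mul hT' hS' hS0.le (by linarith)]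
    nlinarith [Real.pi_le_four, Real.pi_pos, hβ0 (4 / 5)]
  obtain ⟨r, hr, hrl⟩ := intermediate_value_Icc' (show (0 : ℝ) ≤ 4 / 5 by norm_num)
    hcont.continuousOn ⟨h1, h0⟩
  exact ⟨β r, r, hβ0 r, hr, hβS r, hrl⟩

/-- The inverse of the arc length. -/
theorem exists_arclength (hT : 0 < T) (hb : 0 < b) (hr : r ∈ Set.Icc (0 : ℝ) (4 / 5)) :
    ∃ g : ℝ → ℝ, ContDiff ℝ ∞ g ∧ (∀ y, HasDerivAt g (sig b r T (g y))⁻¹ y) ∧
      ∀ y, g (y + ∫ s in (0 : ℝ)..1, sig b r T s) = g y + 1 := by
  set σ := sig b r T with hσ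
  have hσc : Continuous σ := (contDiff_sig hT hb hr).continuous
  set m := T * (b / 5)
  have hm : 0 < m := by positivity
  have hσ0 : ∀ s, 0 < σ s := fun s => hm.trans_le (le_sig hT.le hb.le hr s)
  set H : ℝ → ℝ := fun s => ∫ u in (0 : ℝ)..s, σ u with hH
  have hd : ∀ s, HasDerivAt H (σ s) s := fun s => hσc.integral_hasStrictDerivAt 0 s |>.hasDerivAt
  have hcd : ContDiff ℝ ∞ H := by
    rw [contDiff_infty_iff_deriv]
    refine ⟨fun s => (hd s).differentiableAt, ?_⟩
    rw [show deriv H = σ from funext fun s => (hd s).deriv]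
    exact contDiff_sig hT hb hr
  have hmono : StrictMono H := strictMono_of_deriv_pos fun s => by rw [(hd s).deriv]; exact hσ0 s
  have hmon : Monotone fun s => H s - m * s := by
    have h' : ∀ s, HasDerivAt (fun s => H s - m * s) (σ s - m) s := fun s =>
      ((hd s).sub ((hasDerivAt_id s).const_mul m)).congr_deriv (by ring)
    exact monotone_of_deriv_nonneg (fun s => (h' s).differentiableAt) fun s => by
      rw [(h' s).deriv]; exact sub_nonneg.2 (le_sig hT.le hb.le hr s)
  have hH0 : H 0 = 0 := intervalIntegral.integral_same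
  have hsurj : Function.Surjective H := by
    refine hcd.continuous.surjective
      (Filter.tendsto_atTop_mono' _ ?_ (Filter.tendsto_id.const_mul_atTop hm))
      (Filter.tendsto_atBot_mono' _ ?_ (Filter.tendsto_id.const_mul_atBot hm))
    · filter_upwards [Filter.eventually_ge_atTop (0 : ℝ)] with s hs
      have := hmon hs
      simp only [hH0, mul_zero, sub_zero, id] at this ⊢
      linarith
    · filter_upwards [Filter.eventually_le_atBot (0 : ℝ)] with s hs
      have := hmon hs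
      simp only [hH0, mul_zero, sub_zero, id] at this ⊢
      linarith
  set f := (hmono.orderIsoOfSurjective H hsurj).toHomeomorph with hf
  have hfg : ∀ y, H (f.symm y) = y := fun y => f.apply_symm_apply y
  refine ⟨f.symm, f.contDiff_symm_deriv (fun s => (hσ0 s).ne') hd hcd, fun y => ?_, fun y => ?_⟩
  · exact (hd (f.symm y)).of_local_left_inverse f.symm.continuous.continuousAt (hσ0 _).ne'
      (Filter.Eventually.of_forall hfg)
  · refine hmono.injective ((hfg _).trans ?_)
    have hi : ∀ a c, IntervalIntegrable σ MeasureTheory.volume a c := fun a c =>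
      hσc.intervalIntegrable a c
    show _ = H (f.symm y + 1)
    have h2 := intervalIntegral.integral_add_adjacent_intervals (hi 0 (f.symm y))
      (hi (f.symm y) (f.symm y + 1))
    have h3 := (sig_periodic (b := b) (r := r) (T := T)).intervalIntegral_add_eq (f.symm y) 0
    rw [zero_add] at h3
    calc y + (∫ s in (0 : ℝ)..1, σ s)
        = H (f.symm y) + ∫ u in (f.symm y)..(f.symm y + 1), σ u := by rw [hfg, ← h3]
      _ = H (f.symm y + 1) := h2

/-- The flat torus. -/
def gam4 (b r T : ℝ) (g : ℝ → ℝ) (z : ℂ) : EuclideanSpace ℝ (Fin 4) :=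
  WithLp.toLp 2 ![aa b r (g z.im) * Real.cos (z.re - T * g z.im),
    aa b r (g z.im) * Real.sin (z.re - T * g z.im),
    cc b r (g z.im) * Real.cos (z.re + T * PP b r (g z.im)),
    cc b r (g z.im) * Real.sin (z.re + T * PP b r (g z.im))]

theorem contDiff_gam4 {g : ℝ → ℝ} (hg : ContDiff ℝ ∞ g) : ContDiff ℝ ∞ (gam4 b r T g) := by
  have hs : ContDiff ℝ ∞ fun z : ℂ => g z.im := hg.comp Complex.imCLM.contDiff
  have ha := (contDiff_aa (b := b) (r := r)).comp hs
  have hc := (contDiff_cc (b := b) (r := r)).comp hs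
  have hP := (contDiff_PP (b := b) (r := r)).comp hs
  have hx : ContDiff ℝ ∞ fun z : ℂ => z.re := Complex.reCLM.contDiff
  have h1 := hx.sub (contDiff_const (c := T) |>.mul hs)
  have h2 := hx.add (contDiff_const (c := T) |>.mul hP)
  refine contDiff_euclidean.2 fun i => ?_
  fin_cases i
  · exact ha.mul h1.cos
  · exact ha.mul h1.sin
  · exact hc.mul h2.cos
  · exact hc.mul h2.sin

theorem norm_gam4 (g : ℝ → ℝ) (z : ℂ) : ‖gam4 b r T g z‖ = 1 := by
  have h0 := one_add_pp_pos (b := b) (r := r) (g z.im)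
  have hq : aa b r (g z.im) ^ 2 + cc b r (g z.im) ^ 2 = 1 := by
    rw [aa, cc, div_pow, div_pow, Real.sq_sqrt h0.le, ← add_div]
    exact (div_eq_one_iff_eq h0.ne').2 (by ring)
  rw [← pow_eq_one_iff_of_nonneg (norm_nonneg _) two_ne_zero, EuclideanSpace.norm_sq_eq,
    Fin.sum_univ_four]
  simp only [gam4, Real.norm_eq_abs, sq_abs]
  simp only [Matrix.cons_val_zero, Matrix.cons_val_one, Matrix.cons_val_two, Matrix.cons_val_three,
    Matrix.head_cons, Matrix.tail_cons]
  linear_combination hq + aa b r (g z.im) ^ 2 * Real.sin_sq_add_cos_sq (z.re - T * g z.im)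
    + cc b r (g z.im) ^ 2 * Real.sin_sq_add_cos_sq (z.re + T * PP b r (g z.im))

theorem norm_fderiv_gam4 (hT : 0 < T) (hb : 0 < b) (hr : r ∈ Set.Icc (0 : ℝ) (4 / 5))
    {g : ℝ → ℝ} (hg : ContDiff ℝ ∞ g) (hg' : ∀ y, HasDerivAt g (sig b r T (g y))⁻¹ y) (z w : ℂ) :
    ‖fderiv ℝ (gam4 b r T g) z w‖ = ‖w‖ := by
  set s := g z.im with hs
  set k := (sig b r T s)⁻¹ * w.im with hk
  have hline : HasDerivAt (fun t : ℝ => z + t • w) w 0 := by
    simpa using ((hasDerivAt_id (0 : ℝ)).smul_const w).const_add z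
  have hx : HasDerivAt (fun t : ℝ => (z + t • w).re) w.re 0 :=
    Complex.reCLM.hasFDerivAt.comp_hasDerivAt 0 hline
  have hy : HasDerivAt (fun t : ℝ => (z + t • w).im) w.im 0 :=
    Complex.imCLM.hasFDerivAt.comp_hasDerivAt 0 hline
  have hgs : HasDerivAt (fun t : ℝ => g (z + t • w).im) k 0 :=
    (hg' z.im).comp_of_eq 0 hy (by simp)
  have ha := (hasDerivAt_aa (b := b) (r := r) s).comp_of_eq 0 hgs (by simp [hs])
  have hc := (hasDerivAt_cc (b := b) (r := r) s).comp_of_eq 0 hgs (by simp [hs])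
  have h1 := hx.sub (hgs.const_mul T)
  have h2 := hx.add (((hasDerivAt_PP (b := b) (r := r) s).comp_of_eq 0 hgs (by simp [hs])).const_mul T)
  have hd : HasFDerivAt (gam4 b r T g) (fderiv ℝ (gam4 b r T g) z) z :=
    (((contDiff_gam4 hg).differentiable (by simp)) z).hasFDerivAt
  have hcomp : ∀ i : Fin 4, HasDerivAt (fun t : ℝ => gam4 b r T g (z + t • w) i)
      (fderiv ℝ (gam4 b r T g) z w i) 0 := fun i =>
    (EuclideanSpace.proj (𝕜 := ℝ) i).hasFDerivAt.comp_hasDerivAt 0
      (hd.comp_hasDerivAt_of_eq (0 : ℝ) hline (by simp))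
  have e0 := (hcomp 0).unique (ha.mul h1.cos)
  have e1 := (hcomp 1).unique (ha.mul h1.sin)
  have e2 := (hcomp 2).unique (hc.mul h2.cos)
  have e3 := (hcomp 3).unique (hc.mul h2.sin)
  rw [← pow_left_inj₀ (norm_nonneg _) (norm_nonneg _) two_ne_zero, EuclideanSpace.norm_sq_eq,
    Fin.sum_univ_four, Complex.sq_norm, Complex.normSq_apply]
  simp only [Real.norm_eq_abs, sq_abs, e0, e1, e2, e3, Function.comp_apply, zero_smul, add_zero,
    ← hs, Pi.sub_apply, Pi.add_apply]
  set P := pp b r s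
  set P' := pp' b r s
  set u := Real.sqrt (1 + P ^ 2) with hu
  have hu0 : 0 < u := Real.sqrt_pos.2 (one_add_pp_pos s)
  have hu2 : u ^ 2 = 1 + P ^ 2 := Real.sq_sqrt (one_add_pp_pos s).le
  have hks : k ^ 2 * ((P' / (1 + P ^ 2)) ^ 2 + (T * P) ^ 2) = w.im ^ 2 := by
    have h0 : 0 < sig b r T s := (mul_pos hT (by linarith : (0 : ℝ) < b / 5)).trans_le
      (le_sig hT.le hb.le hr s)
    have h2 : sig b r T s ^ 2 = (P' / (1 + P ^ 2)) ^ 2 + (T * P) ^ 2 := Real.sq_sqrt (by positivity)
    rw [← h2, hk]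
    field_simp
  set φ := z.re - T * s
  set ψ := z.re + T * PP b r s
  calc _ = ((P' / u ^ 3 * k) ^ 2 + (P / u) ^ 2 * (w.re - T * k) ^ 2)
          * (Real.sin φ ^ 2 + Real.cos φ ^ 2)
        + ((-(P * P') / u ^ 3 * k) ^ 2 + (1 / u) ^ 2 * (w.re + T * (P ^ 2 * k)) ^ 2)
          * (Real.sin ψ ^ 2 + Real.cos ψ ^ 2) := by simp only [aa, cc]; ring
    _ = ((1 + P ^ 2) / u ^ 2) * w.re ^ 2
        + k ^ 2 * ((P' / u ^ 2) ^ 2 * ((1 + P ^ 2) / u ^ 2)
          + (T * P) ^ 2 * ((1 + P ^ 2) / u ^ 2)) := by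
      rw [Real.sin_sq_add_cos_sq, Real.sin_sq_add_cos_sq]
      field_simp
      ring
    _ = _ := by
      rw [hu2, div_self (one_add_pp_pos s).ne', one_mul, mul_one, mul_one, hks]
      ring

end Flat

open Flat in
/-- Closed flat tori with one period fixed and the other tall. -/
theorem flatTorus : FlatTorusThm := by
  refine ⟨1000, by norm_num, fun A L hL => ?_⟩
  set n : ℤ := ⌈(L - A) / (2 * Real.pi)⌉ with hn
  set m : ℤ := ⌈(11 / 10 * L + A) / (2 * Real.pi)⌉ with hm
  set T := A + n * (2 * Real.pi) with hT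
  set S := -A + m * (2 * Real.pi) with hS
  have hp := Real.two_pi_pos
  have hp7 : 2 * Real.pi ≤ 7 := by linarith [Real.pi_lt_d2]
  have n1 : L - A ≤ n * (2 * Real.pi) := (div_le_iff₀ hp).1 (Int.le_ceil _)
  have n2 : (n : ℝ) * (2 * Real.pi) ≤ L - A + 2 * Real.pi := by
    have := (Int.ceil_lt_add_one ((L - A) / (2 * Real.pi))).le
    rw [← hn, div_add_one hp.ne', le_div_iff₀ hp] at this
    linarith
  have m1 : 11 / 10 * L + A ≤ m * (2 * Real.pi) := (div_le_iff₀ hp).1 (Int.le_ceil _)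
  have m2 : (m : ℝ) * (2 * Real.pi) ≤ 11 / 10 * L + A + 2 * Real.pi := by
    have := (Int.ceil_lt_add_one ((11 / 10 * L + A) / (2 * Real.pi))).le
    rw [← hm, div_add_one hp.ne', le_div_iff₀ hp] at this
    linarith
  obtain ⟨b, r, hb, hr, hbS, hlen⟩ := exists_profile (T := T) (S := S) hL (by linarith)
    (by linarith) (by linarith) (by linarith)
  obtain ⟨g, hg, hg', hgL⟩ := exists_arclength (T := T) (by linarith) hb hr
  rw [hlen] at hgL
  refine ⟨gam4 b r T g, contDiff_gam4 hg, norm_gam4 g,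
    norm_fderiv_gam4 (by linarith) hb hr hg hg', fun z => ?_, fun z => ?_⟩
  · simp only [gam4, Complex.add_re, Complex.add_im, Complex.ofReal_re, Complex.ofReal_im,
      add_zero, add_sub_right_comm, add_right_comm _ (2 * Real.pi), Real.cos_add_two_pi,
      Real.sin_add_two_pi]
  · have hs : g (z.im + L) = g z.im + 1 := hgL _
    have hA : z.re + A - T * (g z.im + 1)
        = z.re - T * g z.im - n * (2 * Real.pi) := by rw [hT]; ring
    have hB : z.re + A + T * PP b r (g z.im + 1)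
        = z.re + T * PP b r (g z.im) + m * (2 * Real.pi) := by
      rw [PP_add_one, mul_add, hbS, hS]; ring
    simp only [gam4, Complex.add_re, Complex.add_im, Complex.mul_re, Complex.mul_im,
      Complex.ofReal_re, Complex.ofReal_im, Complex.I_re, Complex.I_im, mul_zero, mul_one,
      add_zero, sub_self, zero_add]
    rw [hs, hA, hB, Real.cos_sub_int_mul_two_pi, Real.sin_sub_int_mul_two_pi,
      Real.cos_add_int_mul_two_pi, Real.sin_add_int_mul_two_pi, aa, aa, cc, cc, pp_periodic]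

end Vale.Agent.P205.Torus
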