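import Vale.Agent.P205.Torus.Pins
import Vale.Agent.P205.Fourier

/-!
Smooth real functions with the periods of a lattice are functions of rapidly decreasing symmetric
families.
-/

noncomputable section

open ComplexConjugate
open scoped ContDiff ENNReal NNReal

namespace Vale.Agent.P205.Torus

variable {τ : ℂ}

/-- The lattice coordinates put into the plane. -/
def latL (τ : ℂ) : ℝ × ℝ →L[ℝ] ℂ :=
  (ContinuousLinearMap.fst ℝ ℝ ℝ).smulRight (1 : ℂ) +
    (ContinuousLinearMap.snd ℝ ℝ ℝ).smulRight τ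

theorem latL_apply (p : ℝ × ℝ) : latL τ p = (p.1 : ℂ) + (p.2 : ℂ) * τ := by
  simp [latL, Complex.real_smul]

theorem ch_latL (hτ : τ.im ≠ 0) (k : Idx) (p : ℝ × ℝ) : ch τ k (latL τ p) = Fou.ch k p := by
  rw [ch, Fou.ch]
  congr 1
  have e : ph τ k (latL τ p) = 2 * Real.pi * k.1 * p.1 + 2 * Real.pi * k.2 * p.2 := by
    simp only [ph, latL_apply, mul_add, Complex.add_re, Complex.mul_re, Complex.conj_re,
      Complex.conj_im, Complex.mul_im, Complex.ofReal_re, Complex.ofReal_im, om_re, om_im]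
    field_simp
    ring
  rw [e, Fou.ph_apply]
  simp only [Fou.mX, Fou.mY]
  push_cast
  ring

theorem norm_om_le (hτ : τ.im ≠ 0) :
    ∃ K : ℝ≥0, ∀ k : Idx, 1 + ‖om τ k‖ ≤ K * Fou.wt k := by
  refine ⟨(1 + 2 * Real.pi + 2 * Real.pi * ((1 + |τ.re|) / |τ.im|)).toNNReal, fun k => ?_⟩
  rw [Real.coe_toNNReal _ (by positivity)]
  have h1 := Complex.norm_le_abs_re_add_abs_im (om τ k)
  simp only [om_re, om_im, abs_mul, abs_div, abs_of_pos Real.pi_pos, abs_two] at h1
  have ha : (0 : ℝ) ≤ |(k.1 : ℝ)| := abs_nonneg _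
  have hb : (0 : ℝ) ≤ |(k.2 : ℝ)| := abs_nonneg _
  have hw : |(k.1 : ℝ)| ≤ Fou.wt k ∧ 1 ≤ Fou.wt k :=
    ⟨by unfold Fou.wt; nlinarith, Fou.one_le_wt k⟩
  have hw2 : |(k.2 : ℝ)| ≤ Fou.wt k := by unfold Fou.wt; nlinarith
  have h2 : |(k.2 : ℝ) - k.1 * τ.re| ≤ (1 + |τ.re|) * Fou.wt k := by
    refine (abs_sub _ _).trans ?_
    rw [abs_mul]
    nlinarith [abs_nonneg τ.re, mul_le_mul_of_nonneg_right hw.1 (abs_nonneg τ.re)]
  have h3 : |(k.2 : ℝ) - k.1 * τ.re| / |τ.im| ≤ (1 + |τ.re|) / |τ.im| * Fou.wt k := by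
    rw [div_mul_eq_mul_div]
    gcongr
  nlinarith [Real.two_pi_pos, mul_le_mul_of_nonneg_left hw.1 Real.two_pi_pos.le,
    mul_le_mul_of_nonneg_left h3 Real.two_pi_pos.le]

theorem rapid_of_rd (hτ : τ.im ≠ 0) {c : Cf} (h : Fou.RD c) : Rapid τ c := fun m => by
  obtain ⟨K, hK⟩ := norm_om_le hτ
  have hs : Summable fun k => wp τ m k * ‖c k‖₊ := by
    rw [← NNReal.summable_coe]
    refine Summable.of_nonneg_of_le (fun k => NNReal.coe_nonneg _) (fun k => ?_)
      ((h m).mul_left ((K : ℝ) ^ m))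
    push_cast [wp]
    rw [← mul_assoc, ← mul_pow]
    exact mul_le_mul_of_nonneg_right (pow_le_pow_left₀ (by positivity) (hK k) m) (norm_nonneg _)
  have := ENNReal.tsum_coe_ne_top_iff_summable.2 hs
  simpa [nw, enorm_eq_nnnorm] using this

/-- Smooth periodic real functions are functions of rapidly decreasing symmetric families. -/
theorem fourierThm : FourierThm := by
  intro τ hτ h hh h1 hτp
  set f : ℝ × ℝ → ℂ := fun p => (h (latL τ p) : ℂ) with hf
  have hsp : Fou.SP f := by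
    refine ⟨Complex.ofRealCLM.contDiff.comp (hh.comp (latL τ).contDiff), fun p => ⟨?_, ?_⟩⟩
    · simp only [hf, latL_apply]
      push_cast
      rw [show (p.1 : ℂ) + 1 + (p.2 : ℂ) * τ = ((p.1 : ℂ) + (p.2 : ℂ) * τ) + 1 by ring, h1]
    · simp only [hf, latL_apply]
      push_cast
      rw [show (p.1 : ℂ) + ((p.2 : ℂ) + 1) * τ = ((p.1 : ℂ) + (p.2 : ℂ) * τ) + τ by ring, hτp]
  refine ⟨Fou.cf f, rapid_of_rd hτ (Fou.rd_cf hsp), ?_, fun z => ?_⟩
  · funext k
    simp only [cj, Fou.cf, neg_neg]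
    rw [← integral_conj]
    refine MeasureTheory.setIntegral_congr_fun (measurableSet_Ioc.prod measurableSet_Ioc) fun p _ => ?_
    simp only [map_mul, hf, Complex.conj_ofReal, Fou.ch, ← Complex.exp_conj]
    congr 2
    simp [Fou.ph_apply, Fou.mX, Fou.mY, Complex.conj_ofNat]
  · set t := z.im / τ.im
    have ez : latL τ (z.re - t * τ.re, t) = z := by
      rw [latL_apply]
      apply Complex.ext
      · simp [Complex.mul_re]
      · simp [t, Complex.mul_im, div_mul_cancel₀ _ hτ]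
    have e := congrFun (Fou.ser_cf hsp) (z.re - t * τ.re, t)
    simp only [Fou.ser, ← ch_latL hτ, hf, ez] at e
    exact e

end Vale.Agent.P205.Torus
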