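import Vale.Agent.P205.Torus.Map

/-!
The statements of the pieces of the proof that every torus immerses isometrically in four-space.
-/

noncomputable section

open ComplexConjugate
open scoped ContDiff RealInnerProductSpace

namespace Vale.Agent.P205.Torus

/-- Smooth periodic real functions are functions of rapidly decreasing symmetric families. -/
def FourierThm : Prop :=
  ∀ τ : ℂ, τ.im ≠ 0 → ∀ h : ℂ → ℝ, ContDiff ℝ ∞ h →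
    (∀ z, h (z + 1) = h z) → (∀ z, h (z + τ) = h z) →
    ∃ c : Cf, Rapid τ c ∧ cj c = c ∧ ∀ z, ev τ c z = h z

/-- The equations are solvable for small parameters, continuously in the mean of the
antiholomorphic derivative. -/
def FixThm : Prop :=
  ∀ τ : ℂ, τ.im ≠ 0 → ∀ c0 : Cf, Rapid τ c0 → ∃ η : ℝ, 0 < η ∧ η < 1 ∧ ∃ X : ℝ → St,
    (∀ ε ∈ Set.Icc (0 : ℝ) η, Solves τ c0 ε (X ε) ∧ ‖(X ε).q 0‖ ≤ ε) ∧
    ContinuousOn (fun ε => (X ε).q 0) (Set.Icc (0 : ℝ) η)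

/-- A solution gives a conformal pair. -/
def ConformalThm : Prop :=
  ∀ τ : ℂ, τ.im ≠ 0 → ∀ c0 : Cf, Rapid τ c0 → cj c0 = c0 → ∀ (ε : ℝ) (X : St),
    Solves τ c0 ε X → ∃ (Θ : ℂ → ℂ) (U : ℂ → ℝ) (C : ℝ), 0 < C ∧ ContDiff ℝ ∞ Θ ∧
      ContDiff ℝ ∞ U ∧ (∀ z, U (z + 1) = U z) ∧ (∀ z, U (z + τ) = U z) ∧
      (∀ z, Θ (z + 1) = Θ z + 1 + X.q 0) ∧ (∀ z, Θ (z + τ) = Θ z + τ + X.q 0 * conj τ) ∧
      ∀ z w, (ε * fderiv ℝ U z w) ^ 2 + ‖fderiv ℝ Θ z w‖ ^ 2 =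
        C * Real.exp (2 * ((ev τ c0 z).re - U z)) * ‖w‖ ^ 2

/-- Closed flat tori in the unit sphere with one period fixed and the other tall. -/
def FlatTorusThm : Prop :=
  ∃ L0 : ℝ, 0 < L0 ∧ ∀ A L : ℝ, L0 ≤ L → ∃ Γ : ℂ → EuclideanSpace ℝ (Fin 4),
    ContDiff ℝ ∞ Γ ∧ (∀ z, ‖Γ z‖ = 1) ∧ (∀ z w, ‖fderiv ℝ Γ z w‖ = ‖w‖) ∧
    (∀ z, Γ (z + (2 * Real.pi : ℝ)) = Γ z) ∧ ∀ z, Γ (z + (A + L * Complex.I)) = Γ z

/-- Periodic metrics on the plane are conformally flat, with periodic conformal factor. -/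
def IsothermalThm : Prop :=
  ∀ E F G : ℝ × ℝ → ℝ, ContDiff ℝ ∞ E → ContDiff ℝ ∞ F → ContDiff ℝ ∞ G →
    (∀ p, E (p + (1, 0)) = E p ∧ E (p + (0, 1)) = E p) →
    (∀ p, F (p + (1, 0)) = F p ∧ F (p + (0, 1)) = F p) →
    (∀ p, G (p + (1, 0)) = G p ∧ G (p + (0, 1)) = G p) →
    (∀ p, 0 < E p) → (∀ p, 0 < E p * G p - F p ^ 2) →
    ∃ τ : ℂ, τ.im ≠ 0 ∧ ∃ (Φ : ℝ × ℝ → ℂ) (lam : ℂ → ℝ), ContDiff ℝ ∞ Φ ∧ ContDiff ℝ ∞ lam ∧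
      (∀ p, Φ (p + (1, 0)) = Φ p + 1) ∧ (∀ p, Φ (p + (0, 1)) = Φ p + τ) ∧
      (∀ z, 0 < lam z) ∧ (∀ z, lam (z + 1) = lam z) ∧ (∀ z, lam (z + τ) = lam z) ∧
      ∀ p v w, lam (Φ p) * (conj (fderiv ℝ Φ p v) * fderiv ℝ Φ p w).re =
        E p * (v.1 * w.1) + F p * (v.1 * w.2 + v.2 * w.1) + G p * (v.2 * w.2)

/-- Every smooth metric of the torus has a smooth isometric immersion in four-space. -/
def EveryTorusImmerses : Prop :=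
  ∀ E F G : ℝ × ℝ → ℝ, ContDiff ℝ ∞ E → ContDiff ℝ ∞ F → ContDiff ℝ ∞ G →
    (∀ p, E (p + (1, 0)) = E p ∧ E (p + (0, 1)) = E p) →
    (∀ p, F (p + (1, 0)) = F p ∧ F (p + (0, 1)) = F p) →
    (∀ p, G (p + (1, 0)) = G p ∧ G (p + (0, 1)) = G p) →
    (∀ p, 0 < E p) → (∀ p, 0 < E p * G p - F p ^ 2) →
    ∃ X : ℝ × ℝ → EuclideanSpace ℝ (Fin 4), ContDiff ℝ ∞ X ∧
      (∀ p, X (p + (1, 0)) = X p ∧ X (p + (0, 1)) = X p) ∧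
      ∀ p v w, ⟪fderiv ℝ X p v, fderiv ℝ X p w⟫ =
        E p * (v.1 * w.1) + F p * (v.1 * w.2 + v.2 * w.1) + G p * (v.2 * w.2)

end Vale.Agent.P205.Torus
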