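import Vale.Agent.P205.IsoClosed
import Vale.Agent.P205.Torus.Pins

/-!
Isothermal coordinates on the torus: the chart is a proper local diffeomorphism of the plane,
hence a diffeomorphism.
-/

namespace Vale.Agent.P205.Iso

open scoped ContDiff Real Topology
open Set Filter Complex Fou

noncomputable section

/-- The linear map with two given periods. -/
def lat (A B : ℂ) : (ℝ × ℝ) →L[ℝ] ℂ :=
  (ContinuousLinearMap.fst ℝ ℝ ℝ).smulRight A + (ContinuousLinearMap.snd ℝ ℝ ℝ).smulRight B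

theorem lat_apply (A B : ℂ) (v : ℝ × ℝ) : lat A B v = (v.1 : ℂ) * A + v.2 * B := by
  simp [lat, Complex.real_smul]

/-- The coefficient `μ` of a positive quadratic form. -/
def bel (E F G : ℝ × ℝ → ℝ) (p : ℝ × ℝ) : ℂ :=
  ((E p - G p : ℝ) + (2 * F p : ℝ) * I) / (E p + G p + 2 * √(E p * G p - F p ^ 2) : ℝ)

theorem bel_spec {E F G : ℝ} (hE : 0 < E) (hD : 0 < E * G - F ^ 2) :
    ∀ μ : ℂ, μ = ((E - G : ℝ) + (2 * F : ℝ) * I) / (E + G + 2 * √(E * G - F ^ 2) : ℝ) →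
      ‖μ‖ < 1 ∧ 0 < (E + G + 2 * √(E * G - F ^ 2)) / 4 ∧
      ∀ a b : ℝ, (E + G + 2 * √(E * G - F ^ 2)) / 4 * ‖(a : ℂ) * (1 + μ) + b * I * (1 - μ)‖ ^ 2 =
        E * a ^ 2 + 2 * F * a * b + G * b ^ 2 := by
  rintro μ rfl
  have hG : 0 < G := by
    by_contra h
    nlinarith [sq_nonneg F]
  set D := √(E * G - F ^ 2) with hDdef
  have hD0 : 0 < D := Real.sqrt_pos.2 hD
  have hD2 : D ^ 2 = E * G - F ^ 2 := Real.sq_sqrt hD.le
  set S := E + G + 2 * D with hS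
  have hS0 : 0 < S := by linarith
  set μ : ℂ := ((E - G : ℝ) + (2 * F : ℝ) * I) / (S : ℝ) with hμ
  have hre : μ.re = (E - G) / S := by rw [hμ, Complex.div_ofReal_re]; simp
  have him : μ.im = 2 * F / S := by rw [hμ, Complex.div_ofReal_im]; simp
  refine ⟨?_, by positivity, fun a b => ?_⟩
  · have : ‖μ‖ ^ 2 < 1 := by
      rw [Complex.sq_norm, Complex.normSq_apply, hre, him]
      have e : (E - G) / S * ((E - G) / S) + 2 * F / S * (2 * F / S) =
          ((E - G) ^ 2 + 4 * F ^ 2) / S ^ 2 := by field_simp; ring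
      rw [e, div_lt_one (by positivity), hS]
      nlinarith
    nlinarith [norm_nonneg μ]
  · rw [Complex.sq_norm, Complex.normSq_apply]
    simp only [Complex.add_re, Complex.add_im, Complex.mul_re, Complex.mul_im, Complex.ofReal_re,
      Complex.ofReal_im, Complex.one_re, Complex.one_im, Complex.I_re, Complex.I_im, Complex.sub_re,
      Complex.sub_im, hre, him]
    field_simp
    rw [hS]
    linear_combination 4 * (a ^ 2 + b ^ 2) * hD2

theorem inj_deriv {μ f : ℂ} (hμ : ‖μ‖ < 1) (hf : f ≠ 0) {v : ℝ × ℝ}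
    (h : f * (v.1 * (1 + μ) + v.2 * I * (1 - μ)) = 0) : v = 0 := by
  have h1 : (v.1 + v.2 * I) + μ * (v.1 - v.2 * I) = 0 := by
    have := (mul_eq_zero.1 h).resolve_left hf
    linear_combination this
  have h2 : ‖(v.1 + v.2 * I : ℂ)‖ = ‖(v.1 - v.2 * I : ℂ)‖ := by
    rw [← Complex.norm_conj (v.1 + v.2 * I : ℂ)]
    simp [sub_eq_add_neg]
  have h3 : ‖(v.1 + v.2 * I : ℂ)‖ = ‖μ‖ * ‖(v.1 - v.2 * I : ℂ)‖ := by
    rw [eq_neg_of_add_eq_zero_left h1, norm_neg, norm_mul]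
  have h4 : (v.1 + v.2 * I : ℂ) = 0 := by
    rw [← norm_eq_zero]
    nlinarith [norm_nonneg (v.1 + v.2 * I : ℂ)]
  have hre := congrArg Complex.re h4
  have him := congrArg Complex.im h4
  simp at hre him
  exact Prod.ext hre him

theorem bounded {u : ℝ × ℝ → ℂ} (hu : SP u) : ∃ M, ∀ p, ‖u p‖ ≤ M := by
  obtain ⟨M, hM⟩ := lev_zero.bounded_sq hu
  exact ⟨√M, fun p => Real.le_sqrt_of_sq_le (hM p)⟩

/-- A periodic perturbation of a linear map with injective derivative is injective linearly. -/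
theorem lat_injective {A B : ℂ} {u : ℝ × ℝ → ℂ} (hu : SP u)
    (hinj : ∀ p v, lat A B v + dv v u p = 0 → v = 0) : Function.Injective (lat A B) := by
  by_contra hne
  rw [← ContinuousLinearMap.coe_coe, ← LinearMap.ker_eq_bot] at hne
  obtain ⟨w, hw, hw0⟩ := (Submodule.ne_bot_iff _).1 hne
  obtain ⟨c, hc0, hc⟩ : ∃ c : ℂ, c ≠ 0 ∧ ∀ v, (c * lat A B v).re = 0 := by
    have hrange : Module.finrank ℝ (LinearMap.range (lat A B : ℝ × ℝ →ₗ[ℝ] ℂ)) ≤ 1 := by
      have h1 := (lat A B : ℝ × ℝ →ₗ[ℝ] ℂ).finrank_range_add_finrank_ker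
      have h2 : 0 < Module.finrank ℝ (LinearMap.ker (lat A B : ℝ × ℝ →ₗ[ℝ] ℂ)) :=
        Module.finrank_pos_iff_exists_ne_zero.2 ⟨⟨w, hw⟩, by simpa using hw0⟩
      rw [Module.finrank_prod, Module.finrank_self] at h1
      omega
    obtain ⟨⟨e, he⟩, hspan⟩ := finrank_le_one_iff.1 hrange
    rcases eq_or_ne e 0 with rfl | he0
    · refine ⟨1, one_ne_zero, fun v => ?_⟩
      obtain ⟨r, hr⟩ := hspan ⟨lat A B v, LinearMap.mem_range_self _ v⟩
      have e := congrArg Subtype.val hr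
      simp only [SetLike.val_smul, smul_zero] at e
      simp [← e]
    · refine ⟨I * (starRingEnd ℂ) e, by simp [he0], fun v => ?_⟩
      obtain ⟨r, hr⟩ := hspan ⟨lat A B v, LinearMap.mem_range_self _ v⟩
      have e' := congrArg Subtype.val hr
      simp only [SetLike.val_smul] at e'
      simp [← e', Complex.real_smul]
      ring
  obtain ⟨x, -, hx⟩ := ((isCompact_Icc (a := (0:ℝ)) (b := 1)).prod
      (isCompact_Icc (a := (0:ℝ)) (b := 1))).exists_isMaxOn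
    (f := fun p => (c * u p).re) ⟨(0, 0), by simp, by simp⟩
    ((Complex.continuous_re.comp (continuous_const.mul hu.continuous)).continuousOn)
  have hmax : ∀ p, (c * u p).re ≤ (c * u x).re := fun p => by
    rw [← per2_int hu.2 p (-⌊p.1⌋) (-⌊p.2⌋)]
    refine hx ⟨⟨?_, ?_⟩, ?_, ?_⟩ <;> push_cast <;>
      linarith [Int.floor_le p.1, Int.floor_le p.2, Int.lt_floor_add_one p.1,
        Int.lt_floor_add_one p.2]
  have hd := (Complex.reCLM.hasFDerivAt.comp x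
    ((hu.1.differentiable (by simp) x).hasFDerivAt.const_mul c))
  have hz := IsLocalMax.hasFDerivAt_eq_zero (Eventually.of_forall hmax) hd
  let T : ℝ × ℝ →ₗ[ℝ] ℂ := (lat A B : ℝ × ℝ →ₗ[ℝ] ℂ) + (fderiv ℝ u x : ℝ × ℝ →ₗ[ℝ] ℂ)
  have hTi : Function.Injective T :=
    (injective_iff_map_eq_zero T).2 fun v hv => hinj x v hv
  obtain ⟨v, hv⟩ := (T.injective_iff_surjective_of_finrank_eq_finrank
    (by simp [Complex.finrank_real_complex])).1 hTi ((starRingEnd ℂ) c)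
  have e1 : (c * dv v u x).re = 0 := by
    simpa [dv] using DFunLike.congr_fun hz v
  have e2 : (c * T v).re = 0 := by
    simp only [T, LinearMap.add_apply, ContinuousLinearMap.coe_coe, mul_add, Complex.add_re]
    rw [hc v, zero_add]
    exact e1
  rw [hv, Complex.mul_conj, Complex.ofReal_re] at e2
  exact hc0 (Complex.normSq_eq_zero.1 e2)

/-- Such a map is a diffeomorphism. -/
theorem exists_inverse {A B : ℂ} {u : ℝ × ℝ → ℂ} (hu : SP u)
    (hinj : ∀ p v, lat A B v + dv v u p = 0 → v = 0) :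
    ∃ Ψ : ℂ → ℝ × ℝ, ContDiff ℝ ∞ Ψ ∧ (∀ p, Ψ (lat A B p + u p) = p) ∧
      ∀ w, lat A B (Ψ w) + u (Ψ w) = w := by
  obtain ⟨Φ, hΦdef⟩ : ∃ Φ : ℝ × ℝ → ℂ, Φ = fun p => lat A B p + u p := ⟨_, rfl⟩
  have hΦc : ContDiff ℝ ∞ Φ := hΦdef ▸ (lat A B).contDiff.add hu.1
  have hfd : ∀ p, HasFDerivAt Φ (lat A B + fderiv ℝ u p) p := fun p =>
    hΦdef ▸ (lat A B).hasFDerivAt.add (hu.1.differentiable (by simp) p).hasFDerivAt
  let D : ℝ × ℝ → ((ℝ × ℝ) ≃L[ℝ] ℂ) := fun p =>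
    (LinearEquiv.ofBijective (lat A B + fderiv ℝ u p : (ℝ × ℝ) →L[ℝ] ℂ).toLinearMap
      ⟨(injective_iff_map_eq_zero _).2 fun v hv => hinj p v hv,
        ((lat A B + fderiv ℝ u p : (ℝ × ℝ) →L[ℝ] ℂ).toLinearMap.injective_iff_surjective_of_finrank_eq_finrank
          (by simp [Complex.finrank_real_complex])).1
          ((injective_iff_map_eq_zero _).2 fun v hv => hinj p v hv)⟩).toContinuousLinearEquiv
  have hD : ∀ p, HasFDerivAt Φ (D p : (ℝ × ℝ) →L[ℝ] ℂ) p := fun p => by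
    exact (hfd p).congr_fderiv (ContinuousLinearMap.ext fun v => rfl)
  have hloc : IsLocalHomeomorph Φ := fun p =>
    ⟨(hΦc.contDiffAt.hasStrictFDerivAt' (hD p) (by simp)).toOpenPartialHomeomorph Φ,
      HasStrictFDerivAt.mem_toOpenPartialHomeomorph_source _,
      (HasStrictFDerivAt.toOpenPartialHomeomorph_coe _).symm⟩
  let Le := (LinearEquiv.ofBijective (lat A B : ℝ × ℝ →ₗ[ℝ] ℂ) ⟨lat_injective hu hinj,
      ((lat A B : ℝ × ℝ →ₗ[ℝ] ℂ).injective_iff_surjective_of_finrank_eq_finrank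
        (by simp [Complex.finrank_real_complex])).1 (lat_injective hu hinj)⟩).toContinuousLinearEquiv
  obtain ⟨M, hM⟩ := bounded hu
  have hK : ∀ p, ‖p‖ ≤ ‖(Le.symm : ℂ →L[ℝ] (ℝ × ℝ))‖ * (‖Φ p‖ + M) := fun p => by
    have h1 := (Le.symm : ℂ →L[ℝ] (ℝ × ℝ)).le_opNorm (lat A B p)
    have h2 : Le.symm (lat A B p) = p := Le.symm_apply_apply p
    simp only [ContinuousLinearEquiv.coe_coe, h2] at h1
    refine h1.trans (mul_le_mul_of_nonneg_left ?_ (norm_nonneg _))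
    calc ‖lat A B p‖ = ‖Φ p - u p‖ := by simp [hΦdef]
      _ ≤ ‖Φ p‖ + ‖u p‖ := norm_sub_le _ _
      _ ≤ _ := by linarith [hM p]
  have hproper : IsProperMap Φ := by
    refine isProperMap_iff_isCompact_preimage.2 ⟨hΦc.continuous, fun K hK' => ?_⟩
    obtain ⟨R, hR⟩ := hK'.isBounded.exists_norm_le
    refine Metric.isCompact_of_isClosed_isBounded (hK'.isClosed.preimage hΦc.continuous) ?_
    refine isBounded_iff_forall_norm_le.2 ⟨‖(Le.symm : ℂ →L[ℝ] (ℝ × ℝ))‖ * (R + M), fun p hp => ?_⟩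
    exact (hK p).trans (mul_le_mul_of_nonneg_left (by linarith [hR _ hp]) (norm_nonneg _))
  have hcov : IsCoveringMap Φ := by
    rw [isCoveringMap_iff_isCoveringMapOn_univ]
    refine hproper.isClosedMap.isCoveringMapOn_of_isLocalHomeomorphOn (fun y _ => ?_)
      (fun x _ => hloc x)
    exact ((isProperMap_iff_isCompact_preimage.1 hproper).2 isCompact_singleton).finite
      (.of_openPartialHomeomorph Φ subset_rfl fun e _ => let ⟨φ, h1, h2⟩ := hloc e; ⟨φ, h1, h2.symm⟩)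
  obtain ⟨Ψ, ⟨hΨ0, hΨ⟩, -⟩ := hcov.existsUnique_continuousMap_lifts (ContinuousMap.id ℂ)
    (Φ (0, 0)) (0, 0) rfl
  have hr : ∀ w, Φ (Ψ w) = w := fun w => congrFun hΨ w
  have hl : (fun p => Ψ (Φ p)) = id :=
    hcov.eq_of_comp_eq (Ψ.continuous.comp hΦc.continuous) continuous_id
      (funext fun p => hr (Φ p)) (0, 0) hΨ0
  let H : (ℝ × ℝ) ≃ₜ ℂ :=
    { toFun := Φ
      invFun := Ψ
      left_inv := congrFun hl
      right_inv := hr
      continuous_toFun := hΦc.continuous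
      continuous_invFun := Ψ.continuous }
  refine ⟨Ψ, H.contDiff_symm (f₀' := D) hD hΦc, fun p => ?_, fun w => ?_⟩
  · have := congrFun hl p
    simpa [hΦdef] using this
  · have := hr w
    simpa [hΦdef] using this

theorem re_conj_mul (x y : ℂ) :
    ((starRingEnd ℂ) x * y).re = (‖x + y‖ ^ 2 - ‖x‖ ^ 2 - ‖y‖ ^ 2) / 2 := by
  simp [Complex.sq_norm, Complex.normSq_apply]; ring

theorem per2_of {h : ℝ × ℝ → ℝ} (hh : ∀ p, h (p + (1, 0)) = h p ∧ h (p + (0, 1)) = h p) :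
    Per2 h := fun p => by
  have e1 : p + ((1 : ℝ), (0 : ℝ)) = (p.1 + 1, p.2) := by ext <;> simp
  have e2 : p + ((0 : ℝ), (1 : ℝ)) = (p.1, p.2 + 1) := by ext <;> simp
  exact ⟨e1 ▸ (hh p).1, e2 ▸ (hh p).2⟩

theorem sp_bel {E F G : ℝ × ℝ → ℝ} (hE : ContDiff ℝ ∞ E) (hF : ContDiff ℝ ∞ F)
    (hG : ContDiff ℝ ∞ G) (pE : Per2 E) (pF : Per2 F) (pG : Per2 G) (hE0 : ∀ p, 0 < E p)
    (hD : ∀ p, 0 < E p * G p - F p ^ 2) :
    SP (bel E F G) ∧ ∃ c, c < 1 ∧ ∀ p, ‖bel E F G p‖ ^ 2 ≤ c := by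
  have hS : ∀ p, 0 < E p + G p + 2 * √(E p * G p - F p ^ 2) := fun p => by
    have := (bel_spec (hE0 p) (hD p) _ rfl).2.1
    linarith
  have hcS : ContDiff ℝ ∞ fun p => E p + G p + 2 * √(E p * G p - F p ^ 2) :=
    (hE.add hG).add (contDiff_const.mul
      (((hE.mul hG).sub (hF.pow 2)).sqrt fun p => (hD p).ne'))
  have hμ : SP (bel E F G) := by
    refine ⟨?_, fun p => ?_⟩
    · unfold bel
      simp only [div_eq_mul_inv]
      exact ContDiff.mul ((Complex.ofRealCLM.contDiff.comp (hE.sub hG)).add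
        ((Complex.ofRealCLM.contDiff.comp (contDiff_const.mul hF)).mul contDiff_const))
        ((Complex.ofRealCLM.contDiff.comp hcS).inv fun p => by
          simpa using Complex.ofReal_ne_zero.2 (hS p).ne')
    · simp [bel, (pE p).1, (pE p).2, (pF p).1, (pF p).2, (pG p).1, (pG p).2]
  obtain ⟨q, -, hq⟩ := ((isCompact_Icc (a := (0:ℝ)) (b := 1)).prod
      (isCompact_Icc (a := (0:ℝ)) (b := 1))).exists_isMaxOn
    (f := fun p => ‖bel E F G p‖ ^ 2) ⟨(0, 0), by simp, by simp⟩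
    ((hμ.continuous.norm.pow 2).continuousOn)
  have hc1 : ‖bel E F G q‖ ^ 2 < 1 :=
    pow_lt_one₀ (norm_nonneg _) (bel_spec (hE0 q) (hD q) _ rfl).1 two_ne_zero
  have hc : ∀ p, ‖bel E F G p‖ ^ 2 ≤ ‖bel E F G q‖ ^ 2 := fun p => by
    rw [← per2_int hμ.2 p (-⌊p.1⌋) (-⌊p.2⌋)]
    refine hq ⟨⟨?_, ?_⟩, ?_, ?_⟩ <;> push_cast <;>
      linarith [Int.floor_le p.1, Int.floor_le p.2, Int.lt_floor_add_one p.1,
        Int.lt_floor_add_one p.2]
  exact ⟨hμ, _, hc1, hc⟩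

/-- A periodic chart with first period one, together with its Beltrami equation. -/
theorem chart {E F G : ℝ × ℝ → ℝ} (hE : ContDiff ℝ ∞ E) (hF : ContDiff ℝ ∞ F)
    (hG : ContDiff ℝ ∞ G) (pE : Per2 E) (pF : Per2 F) (pG : Per2 G) (hE0 : ∀ p, 0 < E p)
    (hD : ∀ p, 0 < E p * G p - F p ^ 2) :
    ∃ (τ : ℂ) (u f : ℝ × ℝ → ℂ) (lam : ℂ → ℝ), τ.im ≠ 0 ∧ SP u ∧ SP f ∧ ContDiff ℝ ∞ lam ∧
      (∀ p v, lat 1 τ v + dv v u p =
        f p * (v.1 * (1 + bel E F G p) + v.2 * I * (1 - bel E F G p))) ∧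
      (∀ z, ∃ p, lat 1 τ p + u p = z) ∧ (∀ z, 0 < lam z) ∧ (∀ z, lam (z + 1) = lam z) ∧
      (∀ z, lam (z + τ) = lam z) ∧
      ∀ p v w, lam (lat 1 τ p + u p) *
          ((starRingEnd ℂ) (lat 1 τ v + dv v u p) * (lat 1 τ w + dv w u p)).re =
        E p * (v.1 * w.1) + F p * (v.1 * w.2 + v.2 * w.1) + G p * (v.2 * w.2) := by
  have hS : ∀ p, 0 < E p + G p + 2 * √(E p * G p - F p ^ 2) := fun p => by
    have := (bel_spec (hE0 p) (hD p) _ rfl).2.1
    linarith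
  have hcS : ContDiff ℝ ∞ fun p => E p + G p + 2 * √(E p * G p - F p ^ 2) :=
    (hE.add hG).add (contDiff_const.mul
      (((hE.mul hG).sub (hF.pow 2)).sqrt fun p => (hD p).ne'))
  obtain ⟨hμ, c, hc1, hc⟩ := sp_bel hE hF hG pE pF pG hE0 hD
  obtain ⟨A, B, u, f, hu, hf, hf0, hdu⟩ := exists_chart hμ hc hc1
  have hinj : ∀ p v, lat A B v + dv v u p = 0 → v = 0 := fun p v h => by
    rw [lat_apply, hdu] at h
    exact inj_deriv (bel_spec (hE0 p) (hD p) _ rfl).1 (hf0 p) h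
  obtain ⟨Ψ, hΨc, hl, hr⟩ := exists_inverse hu hinj
  have hL := lat_injective hu hinj
  have hA : A ≠ 0 := fun h => by
    have := hL (a₁ := (1, 0)) (a₂ := (0, 0)) (by simp [lat_apply, h])
    simp [Prod.ext_iff] at this
  have hτ : (B / A).im ≠ 0 := fun h => by
    have e : B = ((B / A).re : ℂ) * A := by
      rw [show ((B / A).re : ℂ) = B / A from Complex.ext (by simp) (by simp [h]), div_mul_cancel₀ B hA]
    have := hL (a₁ := (0, 1)) (a₂ := ((B / A).re, 0)) (by simp [lat_apply, ← e])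
    simp [Prod.ext_iff] at this
  obtain ⟨l, hldef⟩ : ∃ l : ℝ × ℝ → ℝ,
      l = fun p => (E p + G p + 2 * √(E p * G p - F p ^ 2)) / 4 / ‖f p‖ ^ 2 := ⟨_, rfl⟩
  have hlc : ContDiff ℝ ∞ l :=
    hldef ▸ (hcS.div_const 4).div (hf.1.norm_sq ℝ) fun p => pow_ne_zero 2 (norm_ne_zero_iff.2 (hf0 p))
  have hl0 : ∀ p, 0 < l p := fun p => by
    rw [hldef]; have := hS p; have := norm_pos_iff.2 (hf0 p); positivity
  have hlp : Per2 l := fun p => by
    simp [hldef, (pE p).1, (pE p).2, (pF p).1, (pF p).2, (pG p).1, (pG p).2, (hf.2 p).1, (hf.2 p).2]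
  have hsh : ∀ p : ℝ × ℝ, lat A B (p + (1, 0)) + u (p + (1, 0)) = lat A B p + u p + A ∧
      lat A B (p + (0, 1)) + u (p + (0, 1)) = lat A B p + u p + B := fun p => by
    constructor
    · rw [show u (p + (1, 0)) = u (p.1 + 1, p.2) by congr 1; ext <;> simp, (hu.2 p).1]
      simp [lat_apply]; ring
    · rw [show u (p + (0, 1)) = u (p.1, p.2 + 1) by congr 1; ext <;> simp, (hu.2 p).2]
      simp [lat_apply]; ring
  have hΨs : ∀ w, Ψ (w + A) = Ψ w + (1, 0) ∧ Ψ (w + B) = Ψ w + (0, 1) := fun w => by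
    constructor
    · conv_lhs => rw [← hr w, ← (hsh (Ψ w)).1, hl]
    · conv_lhs => rw [← hr w, ← (hsh (Ψ w)).2, hl]
  have hlat : ∀ p, lat 1 (B / A) p = lat A B p / A := fun p => by
    rw [lat_apply, lat_apply, add_div, mul_div_assoc, div_self hA, mul_div_assoc]
  have hdu' : ∀ p v, dv v (fun q => u q / A) p = dv v u p / A := fun p v => by
    simp only [dv, div_eq_inv_mul]
    rw [fderiv_const_mul (hu.1.differentiable (by simp) p)]
    simp
  refine ⟨B / A, fun p => u p / A, fun p => f p / A, fun z => l (Ψ (A * z)) * ‖A‖ ^ 2, hτ,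
    ⟨hu.1.div_const A, fun p => by simp [(hu.2 p).1, (hu.2 p).2]⟩,
    ⟨hf.1.div_const A, fun p => by simp [(hf.2 p).1, (hf.2 p).2]⟩,
    (hlc.comp (hΨc.comp (contDiff_const.mul contDiff_id))).mul contDiff_const,
    fun p v => ?_, fun z => ⟨Ψ (A * z), ?_⟩,
    fun z => mul_pos (hl0 _) (pow_pos (norm_pos_iff.2 hA) 2),
    fun z => ?_, fun z => ?_, fun p v w => ?_⟩
  · rw [hdu', hlat, ← add_div, lat_apply, hdu]
    ring
  · rw [hlat, ← add_div, hr, mul_div_cancel_left₀ z hA]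
  · simp only [mul_add, mul_one, (hΨs _).1]
    rw [show Ψ (A * z) + (1, 0) = ((Ψ (A * z)).1 + 1, (Ψ (A * z)).2) by ext <;> simp, (hlp _).1]
  · simp only [mul_add, mul_div_cancel₀ _ hA, (hΨs _).2]
    rw [show Ψ (A * z) + (0, 1) = ((Ψ (A * z)).1, (Ψ (A * z)).2 + 1) by ext <;> simp, (hlp _).2]
  · have hq : ∀ v : ℝ × ℝ, l p * ‖A‖ ^ 2 * ‖A⁻¹ * (lat A B v + dv v u p)‖ ^ 2 =
        E p * v.1 ^ 2 + 2 * F p * v.1 * v.2 + G p * v.2 ^ 2 := fun v => by
      rw [lat_apply, hdu, ← (bel_spec (hE0 p) (hD p) _ rfl).2.2 v.1 v.2, norm_mul, norm_mul, norm_inv,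
        hldef]
      have h1 := norm_ne_zero_iff.2 (hf0 p)
      have h2 := norm_ne_zero_iff.2 hA
      simp only [bel]
      field_simp
    have h1 := hq v
    have h2 := hq w
    have h3 := hq (v + w)
    simp only [hdu', hlat, ← add_div, mul_div_cancel₀ _ hA, hl]
    simp only [dv, map_add, Prod.fst_add, Prod.snd_add] at h1 h2 h3
    simp only [div_eq_inv_mul, dv, re_conj_mul]
    rw [show A⁻¹ * (lat A B v + (fderiv ℝ u p) v) + A⁻¹ * (lat A B w + (fderiv ℝ u p) w) =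
      A⁻¹ * (lat A B v + lat A B w + ((fderiv ℝ u p) v + (fderiv ℝ u p) w)) by ring]
    linear_combination (1 / 2 : ℝ) * h3 - (1 / 2 : ℝ) * h1 - (1 / 2 : ℝ) * h2

theorem fderiv_lat_add {τ : ℂ} {u : ℝ × ℝ → ℂ} (hu : SP u) (p v : ℝ × ℝ) :
    fderiv ℝ (fun p => lat 1 τ p + u p) p v = lat 1 τ v + dv v u p := by
  rw [fderiv_fun_add (lat 1 τ).differentiableAt (hu.1.differentiable (by simp) p),
    ContinuousLinearMap.fderiv]
  rfl

theorem isothermal : Torus.IsothermalThm := by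
  intro E F G hE hF hG pE pF pG hE0 hD
  obtain ⟨τ, u, f, lam, hτ, hu, -, hlc, -, -, h0, h1, h2, hmet⟩ :=
    chart hE hF hG (per2_of pE) (per2_of pF) (per2_of pG) hE0 hD
  refine ⟨τ, hτ, fun p => lat 1 τ p + u p, lam, (lat 1 τ).contDiff.add hu.1, hlc,
    fun p => ?_, fun p => ?_, h0, h1, h2, fun p v w => ?_⟩
  · simp only []
    rw [show u (p + (1, 0)) = u (p.1 + 1, p.2) by congr 1; ext <;> simp, (hu.2 p).1]
    simp [lat_apply]; ring
  · simp only []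
    rw [show u (p + (0, 1)) = u (p.1, p.2 + 1) by congr 1; ext <;> simp, (hu.2 p).2]
    simp [lat_apply]; ring
  · rw [fderiv_lat_add hu, fderiv_lat_add hu]
    exact hmet p v w

end

end Vale.Agent.P205.Iso
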