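import Vale.Agent.P205.Torus.Deriv

/-!
The map whose fixed points give the conformal factor and the near-identity map of the torus.
-/

noncomputable section

open ComplexConjugate
open scoped ENNReal NNReal

namespace Vale.Agent.P205.Torus

/-- The unknowns. -/
structure St where
  /-- The family of minus four times the mixed second derivative of the correction. -/
  d : Cf
  /-- The family of the antiholomorphic derivative. -/
  q : Cf
  /-- The family of the inverse of the conjugate holomorphic derivative, minus one. -/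
  i : Cf
  /-- The family of the inverse of the energy, minus two. -/
  j : Cf

variable (τ : ℂ) (c0 : Cf) (ε : ℝ) (X : St)

/-- The correction of the logarithm of the radius. -/
def vv : Cf := mult (fun k => -((‖om τ k‖ ^ 2 : ℝ) : ℂ)⁻¹) X.d

/-- The holomorphic derivative minus one. -/
def bq : Cf := mult (fun k => conj (om τ k) / om τ k) X.q

/-- The derivative of the scaled logarithm of the radius. -/
def fz : Cf := (ε : ℂ) • dz τ (c0 + vv τ X)

/-- Its holomorphic derivative. -/
def fzz : Cf := (ε : ℂ) • dz τ (dz τ (c0 + vv τ X))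

/-- Its antiholomorphic derivative. -/
def fzb : Cf := (ε : ℂ) • dz τ (dzb τ (c0 + vv τ X))

/-- The equation for the antiholomorphic derivative. -/
def qMap : Cf := -conv (conv (cj (fz τ c0 ε X)) (cj (fz τ c0 ε X))) (one + X.i)

/-- The equation for the inverse of the holomorphic derivative. -/
def iMap : Cf := -conv (cj (bq τ X)) (one + X.i)

/-- Twice the energy, minus one. -/
def e2 : Cf :=
  bq τ X + cj (bq τ X) + conv (bq τ X) (cj (bq τ X)) + conv X.q (cj X.q) +
    (2 : ℂ) • conv (fz τ c0 ε X) (cj (fz τ c0 ε X))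

/-- The inverse of the energy. -/
def jj : Cf := (2 : ℂ) • one + X.j

/-- The equation for the inverse of the energy. -/
def jMap : Cf := -conv (e2 τ c0 ε X) (jj X)

/-- The derivative of the energy. -/
def ez : Cf :=
  (2 : ℂ)⁻¹ • (conv (dz τ (bq τ X)) (one + cj (bq τ X)) + conv (cj (dzb τ X.q)) X.q) +
    conv (fzz τ c0 ε X) (cj (fz τ c0 ε X))

/-- The mixed second derivative of the energy. -/
def ezb : Cf :=
  (2 : ℂ)⁻¹ • (conv (dz τ (bq τ X)) (cj (dz τ (bq τ X))) + conv (dzb τ X.q) (cj (dzb τ X.q))) +
    conv (fzz τ c0 ε X) (cj (fzz τ c0 ε X)) - conv (dz τ X.q) (cj (dz τ X.q)) -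
    conv (fzb τ c0 ε X) (fzb τ c0 ε X)

/-- The mixed second derivative of the logarithm of the energy. -/
def lapLog : Cf :=
  conv (jj X) (ezb τ c0 ε X) -
    conv (conv (jj X) (jj X)) (conv (ez τ c0 ε X) (cj (ez τ c0 ε X)))

/-- The equation for the correction. -/
def dMap : Cf := (-2 : ℂ) • noMean (sym (lapLog τ c0 ε X))

/-- One step. -/
def step : St := ⟨dMap τ c0 ε X, qMap τ c0 ε X, iMap τ X, jMap τ c0 ε X⟩

/-- A rapidly decreasing solution. -/
structure Solves : Prop where
  fixed : step τ c0 ε X = X
  rapid_d : Rapid τ X.d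
  rapid_q : Rapid τ X.q
  rapid_i : Rapid τ X.i
  rapid_j : Rapid τ X.j

end Vale.Agent.P205.Torus
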